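import Mathlib

/-!
P142: the Bergman kernel and the Bergman projection of a simply connected domain.
-/

open Complex MeasureTheory
open scoped Real ComplexConjugate

namespace Vale.Agent.P142

noncomputable section

/-- The Bergman kernel `K(z, w) = φ'(z) conj(φ'(w)) / (π (1 - φ(z) conj(φ(w)))²)` of `W`, where
`φ` is a conformal bijection of `W` onto the unit disc. -/
def bergK (φ : ℂ → ℂ) (z w : ℂ) : ℂ :=
  deriv φ z * conj (deriv φ w) / (π * (1 - φ z * conj (φ w)) ^ 2)

/-- The Bergman projection `(B g)(z) = ∫_W K(z, w) g(w) dA(w)` of `W`. -/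
def bergP (W : Set ℂ) (φ : ℂ → ℂ) (g : ℂ → ℂ) (z : ℂ) : ℂ :=
  ∫ w in W, bergK φ z w * g w

end

end Vale.Agent.P142
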