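import Vale.Agent.P142.H521.Sharp

/-!
P142, Bergman projection: sharpness of the range of exponents (the domain and the function).
-/

open Complex MeasureTheory Metric Set Filter Topology
open scoped Real ComplexConjugate ENNReal

namespace Vale.Agent.P142.H521

open Vale.Agent.P142

noncomputable section

variable {f : ℂ → ℂ}

/-- images of open sets under univalent maps are open -/
lemma isOpen_image_univ (hd : DifferentiableOn ℂ f (ball 0 1)) (hi : InjOn f (ball 0 1))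
    {U : Set ℂ} (hU : IsOpen U) (hUs : U ⊆ ball 0 1) : IsOpen (f '' U) := by
  rw [isOpen_iff_mem_nhds]
  rintro _ ⟨z, hz, rfl⟩
  have h1 : HasStrictDerivAt f (deriv f z) z :=
    (hd.analyticAt (isOpen_ball.mem_nhds (hUs hz))).hasStrictDerivAt
  have h2 : deriv f z ≠ 0 := univ_deriv_ne_zero ⟨hd, hi⟩ (hUs hz)
  rw [← h1.map_nhds_eq h2]
  exact image_mem_map (hU.mem_nhds hz)

/-- the inverse of a univalent function -/
lemma exists_phi (hd : DifferentiableOn ℂ f (ball 0 1)) (hi : InjOn f (ball 0 1)) :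
    ∃ φ : ℂ → ℂ, IsOpen (f '' ball 0 1) ∧ DifferentiableOn ℂ φ (f '' ball 0 1) ∧
      BijOn φ (f '' ball 0 1) (ball 0 1) ∧ (∀ z ∈ ball (0 : ℂ) 1, φ (f z) = z) ∧
      ∀ z ∈ ball (0 : ℂ) 1, deriv φ (f z) = (deriv f z)⁻¹ := by
  have hb : BijOn f (ball 0 1) (f '' ball 0 1) := hi.bijOn_image
  set φ : ℂ → ℂ := Function.invFunOn f (ball 0 1) with hφ
  have hinv : InvOn φ f (ball 0 1) (f '' ball 0 1) := hb.invOn_invFunOn
  have hbij' : BijOn φ (f '' ball 0 1) (ball 0 1) := (bijOn_comm hinv).mpr hb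
  have hder : ∀ z ∈ ball (0 : ℂ) 1, HasDerivAt φ (deriv f z)⁻¹ (f z) := by
    intro z hz
    have h1 : HasStrictDerivAt f (deriv f z) z :=
      (hd.analyticAt (isOpen_ball.mem_nhds hz)).hasStrictDerivAt
    have h2 : deriv f z ≠ 0 := univ_deriv_ne_zero ⟨hd, hi⟩ hz
    have hev : ∀ᶠ x in 𝓝 z, φ (f x) = x := by
      filter_upwards [isOpen_ball.mem_nhds hz] with x hx
      exact hinv.1 hx
    exact (h1.to_local_left_inverse h2 hev).hasDerivAt
  refine ⟨φ, isOpen_image_univ hd hi isOpen_ball subset_rfl, ?_, hbij',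
    fun z hz => hinv.1 hz, fun z hz => (hder z hz).deriv⟩
  rintro _ ⟨z, hz, rfl⟩
  exact (hder z hz).differentiableAt.differentiableWithinAt

/-- change of variables for the powers of `|φ'|` -/
lemma lint_phi (hd : DifferentiableOn ℂ f (ball 0 1)) (hi : InjOn f (ball 0 1)) {φ : ℂ → ℂ}
    (hφ' : ∀ z ∈ ball (0 : ℂ) 1, deriv φ (f z) = (deriv f z)⁻¹) (p : ℝ) :
    ∫⁻ w in f '' ball 0 1, ENNReal.ofReal (‖deriv φ w‖ ^ p) =
      ∫⁻ z in ball (0 : ℂ) 1, ENNReal.ofReal (‖deriv f z‖ ^ (2 - p)) := by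
  have h1 := lintegral_image_eq_lintegral_abs_det_fderiv_mul volume (s := ball (0 : ℂ) 1)
    (f := f) (f' := fun z => (ContinuousLinearMap.toSpanSingleton ℂ (deriv f z)).restrictScalars ℝ)
    measurableSet_ball (fun z hz =>
      (((hd.differentiableAt (isOpen_ball.mem_nhds hz)).hasDerivAt.hasFDerivAt).restrictScalars
        ℝ).hasFDerivWithinAt) hi (fun w => ENNReal.ofReal (‖deriv φ w‖ ^ p))
  rw [h1]
  apply setLIntegral_congr_fun measurableSet_ball
  intro z hz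
  have h2 : 0 < ‖deriv f z‖ := norm_pos_iff.mpr (univ_deriv_ne_zero ⟨hd, hi⟩ hz)
  simp only [abs_det_holo]
  rw [hφ' z hz, norm_inv, ← ENNReal.ofReal_mul (by positivity)]
  congr 1
  rw [Real.inv_rpow h2.le, Real.rpow_sub h2, Real.rpow_two, div_eq_mul_inv]

/-- an antiholomorphic mean value -/
lemma anti_mean {x : ℂ} (hx : ‖x‖ < 1) :
    ∫ ζ in ball (0 : ℂ) (1 / 2), ((1 - x * conj ζ) ^ 2)⁻¹ = (π : ℂ) / 4 := by
  have h1 : DifferentiableOn ℂ (fun ζ => ((1 - conj x * ζ) ^ 2)⁻¹) (ball 0 1) := by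
    intro ζ hζ
    have hζ' : ‖ζ‖ < 1 := by simpa using hζ
    have h2 : 1 - conj x * ζ ≠ 0 := by
      have := one_sub_ne hζ' hx
      rwa [mul_comm] at this
    have h3 : DifferentiableAt ℂ (fun ζ => (1 - conj x * ζ) ^ 2) ζ := by fun_prop
    exact (h3.inv (pow_ne_zero 2 h2)).differentiableWithinAt
  have h2 := int_ball h1 (r := 1 / 2) (by norm_num) (by norm_num)
  have h3 : ∫ ζ in ball (0 : ℂ) (1 / 2), ((1 - x * conj ζ) ^ 2)⁻¹ =
      conj (∫ ζ in ball (0 : ℂ) (1 / 2), ((1 - conj x * ζ) ^ 2)⁻¹) := by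
    rw [← integral_conj]
    congr 1
    funext ζ
    simp
  rw [h3, h2]
  simp only [mul_zero, sub_zero, one_pow, inv_one, mul_one, map_mul, Complex.conj_ofReal, map_pow]
  push_cast
  ring

/-- the Bergman projection of the test function -/
lemma berg_test (hd : DifferentiableOn ℂ f (ball 0 1)) (hi : InjOn f (ball 0 1)) {φ : ℂ → ℂ}
    (hb : BijOn φ (f '' ball 0 1) (ball 0 1))
    (hφ : ∀ z ∈ ball (0 : ℂ) 1, φ (f z) = z)
    (hφ' : ∀ z ∈ ball (0 : ℂ) 1, deriv φ (f z) = (deriv f z)⁻¹) {z : ℂ}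
    (hz : z ∈ f '' ball 0 1) :
    bergP (f '' ball 0 1) φ ((f '' ball 0 (1 / 2)).indicator (deriv φ)) z = deriv φ z / 4 := by
  have hz1 : ‖φ z‖ < 1 := by simpa using hb.mapsTo hz
  have hsub : ball (0 : ℂ) (1 / 2) ⊆ ball 0 1 := ball_subset_ball (by norm_num)
  have hopen : IsOpen (f '' ball 0 (1 / 2)) := isOpen_image_univ hd hi isOpen_ball hsub
  have h1 : bergP (f '' ball 0 1) φ ((f '' ball 0 (1 / 2)).indicator (deriv φ)) z =
      ∫ w in f '' ball 0 (1 / 2), bergK φ z w * deriv φ w := by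
    unfold bergP
    have h2 : (fun w => bergK φ z w * (f '' ball 0 (1 / 2)).indicator (deriv φ) w) =
        (f '' ball 0 (1 / 2)).indicator fun w => bergK φ z w * deriv φ w := by
      funext w
      by_cases hw : w ∈ f '' ball 0 (1 / 2)
      · rw [indicator_of_mem hw, indicator_of_mem hw]
      · rw [indicator_of_notMem hw, indicator_of_notMem hw, mul_zero]
    rw [h2, setIntegral_indicator hopen.measurableSet, inter_eq_right.mpr (image_mono hsub)]
  have hf' : ∀ z ∈ ball (0 : ℂ) (1 / 2), HasFDerivWithinAt f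
      ((ContinuousLinearMap.toSpanSingleton ℂ (deriv f z)).restrictScalars ℝ)
        (ball 0 (1 / 2)) z := by
    intro z hz
    exact (((hd.differentiableAt (isOpen_ball.mem_nhds (hsub hz))).hasDerivAt.hasFDerivAt
        ).restrictScalars ℝ).hasFDerivWithinAt
  rw [h1, integral_image_eq_integral_abs_det_fderiv_smul volume measurableSet_ball hf'
    (hi.mono hsub)]
  have h3 : ∀ ζ ∈ ball (0 : ℂ) (1 / 2),
      |((ContinuousLinearMap.toSpanSingleton ℂ (deriv f ζ)).restrictScalars ℝ).det| •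
        (bergK φ z (f ζ) * deriv φ (f ζ)) =
      (deriv φ z / π) * ((1 - φ z * conj ζ) ^ 2)⁻¹ := by
    intro ζ hζ
    have hne : deriv f ζ ≠ 0 := univ_deriv_ne_zero ⟨hd, hi⟩ (hsub hζ)
    rw [bergK_mul, hφ ζ (hsub hζ), hφ' ζ (hsub hζ)]
    have h4 : (deriv φ z / π) * (((1 - φ z * conj ζ) ^ 2)⁻¹ * (conj (deriv f ζ)⁻¹ *
        (deriv f ζ)⁻¹)) = conj (deriv f ζ)⁻¹ * (((deriv φ z / π) *
          ((1 - φ z * conj ζ) ^ 2)⁻¹) * (deriv f ζ)⁻¹) := by ring
    rw [h4, det_smul hne]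
    field_simp
  rw [setIntegral_congr_fun measurableSet_ball h3, integral_const_mul, anti_mean hz1]
  have hpi : (π : ℂ) ≠ 0 := Complex.ofReal_ne_zero.mpr Real.pi_pos.ne'
  field_simp

end

end Vale.Agent.P142.H521
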