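import Vale.Agent.P142.H521.Symm
import Vale.Agent.P142.H521.Sharp2

/-!
P142, Bergman projection: assembly.
-/

open Complex MeasureTheory Metric Set Filter Topology
open scoped Real ComplexConjugate ENNReal

namespace Vale.Agent.P142.H521

open Vale.Agent.P142

noncomputable section

lemma eLpNorm_form {ε : Type*} [TopologicalSpace ε] [ContinuousENorm ε] {p : ℝ} (hp : 0 < p)
    (u : ℂ → ε) (μ : Measure ℂ) :
    eLpNorm u (ENNReal.ofReal p) μ = (∫⁻ x, ‖u x‖ₑ ^ p ∂μ) ^ (1 / p) := by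
  rw [eLpNorm_eq_lintegral_rpow_enorm_toReal (by simpa using hp) ENNReal.ofReal_ne_top,
    ENNReal.toReal_ofReal hp.le]

lemma memLp_form {p : ℝ} (hp : 0 < p) {g : ℂ → ℂ} {μ : Measure ℂ}
    (h : MemLp g (ENNReal.ofReal p) μ) :
    AEStronglyMeasurable g μ ∧ ∫⁻ x, ‖g x‖ₑ ^ p ∂μ < ⊤ := by
  refine ⟨h.1, ?_⟩
  have h1 := (eLpNorm_lt_top_iff_lintegral_rpow_enorm_lt_top (by simpa using hp)
    ENNReal.ofReal_ne_top).mp h.2
  rwa [ENNReal.toReal_ofReal hp.le] at h1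

theorem clause2 {p : ℝ} (hp1 : 4 / 3 < p) (hp2 : p < 4) : ∃ C : ℝ, 0 < C ∧
    ∀ (W : Set ℂ) (φ : ℂ → ℂ), IsOpen W → DifferentiableOn ℂ φ W → BijOn φ W (ball 0 1) →
    ∀ g : ℂ → ℂ, MemLp g (ENNReal.ofReal p) (volume.restrict W) →
      (∀ z ∈ W, IntegrableOn (fun w => bergK φ z w * g w) W) ∧
      DifferentiableOn ℂ (bergP W φ g) W ∧
      eLpNorm (bergP W φ g) (ENNReal.ofReal p) (volume.restrict W) ≤
        ENNReal.ofReal C * eLpNorm g (ENNReal.ofReal p) (volume.restrict W) ∧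
      eLpNorm (fun z => ∫⁻ w in W, ‖bergK φ z w‖ₑ * ‖g w‖ₑ) (ENNReal.ofReal p)
        (volume.restrict W) ≤
        ENNReal.ofReal C * eLpNorm g (ENNReal.ofReal p) (volume.restrict W) ∧
      (DifferentiableOn ℂ g W → EqOn (bergP W φ g) g W) ∧
      ∀ h : ℂ → ℂ, MemLp h (ENNReal.ofReal (p / (p - 1))) (volume.restrict W) →
        ∫ z in W, bergP W φ g z * conj (h z) = ∫ z in W, g z * conj (bergP W φ h z) := by
  have hp : 0 < p := by linarith
  have hp0 : 0 < p - 1 := by linarith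
  obtain ⟨C, hC, hbd⟩ := berg_bdd hp1 hp2
  refine ⟨C ^ (1 / p), by positivity, fun W φ hW hd hb g hg => ?_⟩
  obtain ⟨hgm, hgp⟩ := memLp_form hp hg
  have hmain : eLpNorm (fun z => ∫⁻ w in W, ‖bergK φ z w‖ₑ * ‖g w‖ₑ) (ENNReal.ofReal p)
        (volume.restrict W) ≤
        ENNReal.ofReal (C ^ (1 / p)) * eLpNorm g (ENNReal.ofReal p) (volume.restrict W) := by
    rw [eLpNorm_form hp, eLpNorm_form hp, ← ENNReal.ofReal_rpow_of_nonneg hC.le (by positivity),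
      ← ENNReal.mul_rpow_of_nonneg _ _ (by positivity)]
    apply ENNReal.rpow_le_rpow _ (by positivity)
    simp only [enorm_eq_self]
    exact hbd W φ hW hd hb g hgm
  refine ⟨fun z hz => berg_integrable hp1 hp2 hW hd hb hgm hgp hz,
    berg_holo hp1 hp2 hW hd hb hgm hgp, ?_, hmain,
    fun hgd z hz => berg_repro hp1 hp2 hW hd hb hgd hgp hz, fun h hh => ?_⟩
  · refine le_trans ?_ hmain
    rw [eLpNorm_form hp, eLpNorm_form hp]
    apply ENNReal.rpow_le_rpow _ (by positivity)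
    apply lintegral_mono
    intro z
    apply ENNReal.rpow_le_rpow _ hp.le
    rw [enorm_eq_self]
    unfold bergP
    refine (enorm_integral_le_lintegral_enorm _).trans (le_of_eq ?_)
    apply lintegral_congr
    intro w
    rw [enorm_mul]
  · obtain ⟨hhm, hhp⟩ := memLp_form (by positivity) hh
    exact berg_symm hp1 hp2 hW hd hb hgm hgp hhm hhp

/-- the test function -/
lemma test_fun {f : ℂ → ℂ} (hd : DifferentiableOn ℂ f (ball 0 1)) (hi : InjOn f (ball 0 1))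
    {φ : ℂ → ℂ} (hW : IsOpen (f '' ball 0 1)) (hφd : DifferentiableOn ℂ φ (f '' ball 0 1))
    (hb : BijOn φ (f '' ball 0 1) (ball 0 1)) (hφ : ∀ z ∈ ball (0 : ℂ) 1, φ (f z) = z)
    (hφ' : ∀ z ∈ ball (0 : ℂ) 1, deriv φ (f z) = (deriv f z)⁻¹) :
    ∃ g : ℂ → ℂ, Measurable g ∧ (∃ M : ℝ, ∀ w, ‖g w‖ ≤ M) ∧
      (∃ K ⊆ f '' ball 0 1, IsCompact K ∧ ∀ w, w ∉ K → g w = 0) ∧
      ∀ z ∈ f '' ball 0 1, bergP (f '' ball 0 1) φ g z = deriv φ z / 4 := by
  have hsub : ball (0 : ℂ) (1 / 2) ⊆ ball 0 1 := ball_subset_ball (by norm_num)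
  have hopen : IsOpen (f '' ball 0 (1 / 2)) := isOpen_image_univ hd hi isOpen_ball hsub
  have hcs : closedBall (0 : ℂ) (1 / 2) ⊆ ball 0 1 := closedBall_subset_ball (by norm_num)
  have hK : IsCompact (f '' closedBall 0 (1 / 2)) :=
    (isCompact_closedBall _ _).image_of_continuousOn (hd.continuousOn.mono hcs)
  have hKW : f '' closedBall 0 (1 / 2) ⊆ f '' ball 0 1 := image_mono hcs
  have hcont : ContinuousOn (deriv φ) (f '' closedBall 0 (1 / 2)) :=
    (hφd.deriv hW).continuousOn.mono hKW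
  obtain ⟨M, hM⟩ := hK.exists_bound_of_continuousOn hcont
  refine ⟨(f '' ball 0 (1 / 2)).indicator (deriv φ),
    (measurable_deriv φ).indicator hopen.measurableSet, ⟨max M 0, fun w => ?_⟩,
    ⟨f '' closedBall 0 (1 / 2), hKW, hK, fun w hw => ?_⟩,
    fun z hz => berg_test hd hi hb hφ hφ' hz⟩
  · by_cases hw : w ∈ f '' ball 0 (1 / 2)
    · rw [indicator_of_mem hw]
      exact (hM w (image_mono ball_subset_closedBall hw)).trans (le_max_left _ _)
    · rw [indicator_of_notMem hw, norm_zero]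
      exact le_max_right _ _
  · exact indicator_of_notMem (fun h => hw (image_mono ball_subset_closedBall h)) _

theorem clause3 (W : Set ℂ) (φ : ℂ → ℂ) (hW : IsOpen W) (hd : DifferentiableOn ℂ φ W)
    (hb : BijOn φ W (ball 0 1)) :
    ∃ g : ℂ → ℂ, Measurable g ∧ (∃ M : ℝ, ∀ w, ‖g w‖ ≤ M) ∧
      (∃ K ⊆ W, IsCompact K ∧ ∀ w, w ∉ K → g w = 0) ∧
      ∀ z ∈ W, bergP W φ g z = deriv φ z / 4 := by
  obtain ⟨f, hinv, hbij, hder⟩ := exists_inv hW hd hb
  have hdf : DifferentiableOn ℂ f (ball 0 1) := fun z hz =>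
    (hder z hz).differentiableAt.differentiableWithinAt
  have hχ : ∀ z ∈ ball (0 : ℂ) 1, deriv φ (f z) = (deriv f z)⁻¹ := by
    intro z hz
    rw [(hder z hz).deriv, inv_inv]
  have himg := hbij.image_eq
  have h1 := test_fun (φ := φ) hdf hbij.injOn (by rw [himg]; exact hW) (by rw [himg]; exact hd)
    (by rw [himg]; exact hb) (fun z hz => hinv.2 hz) hχ
  rw [himg] at h1
  exact h1

theorem clause4 : ∃ (W : Set ℂ) (φ : ℂ → ℂ), IsOpen W ∧ DifferentiableOn ℂ φ W ∧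
    BijOn φ W (ball 0 1) ∧ ∃ g : ℂ → ℂ, Measurable g ∧ (∃ M : ℝ, ∀ w, ‖g w‖ ≤ M) ∧
      (∃ K ⊆ W, IsCompact K ∧ ∀ w, w ∉ K → g w = 0) ∧
      ∀ p : ℝ, 1 ≤ p → (p ≤ 4 / 3 ∨ 4 ≤ p) →
        eLpNorm (bergP W φ g) (ENNReal.ofReal p) (volume.restrict W) = ⊤ := by
  obtain ⟨f, hf, htop⟩ := exists_koebe
  obtain ⟨φ, hW, hφd, hφb, hφ, hφ'⟩ := exists_phi hf.1 hf.2.1
  obtain ⟨g, hg1, hg2, hg3, hg4⟩ := clause3 (f '' ball 0 1) φ hW hφd hφb
  refine ⟨f '' ball 0 1, φ, hW, hφd, hφb, g, hg1, hg2, hg3, fun p hp1 hp => ?_⟩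
  have hp0 : 0 < p := by linarith
  rw [eLpNorm_form hp0]
  have h1 : ∫⁻ z in f '' ball 0 1, ‖bergP (f '' ball 0 1) φ g z‖ₑ ^ p =
      ∫⁻ z in f '' ball 0 1, ENNReal.ofReal ((1 / 4) ^ p) *
        ENNReal.ofReal (‖deriv φ z‖ ^ p) := by
    apply setLIntegral_congr_fun hW.measurableSet
    intro z hz
    simp only
    rw [hg4 z hz, ← ofReal_norm,
      ENNReal.ofReal_rpow_of_nonneg (norm_nonneg _) hp0.le,
      ← ENNReal.ofReal_mul (by positivity)]
    congr 1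
    rw [norm_div, div_eq_mul_one_div, Real.mul_rpow (norm_nonneg _) (by positivity), mul_comm]
    congr 2
    norm_num
  rw [h1, lintegral_const_mul' _ _ ENNReal.ofReal_ne_top, lint_phi hf.1 hf.2.1 hφ' p,
    htop p hp, ENNReal.mul_top (by
      rw [Ne, ENNReal.ofReal_eq_zero, not_le]
      positivity), ENNReal.top_rpow_of_pos (by positivity)]

end

end Vale.Agent.P142.H521
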