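import Mathlib

/-!
P142, Bergman projection: Schur's test with a weight on `L^p`.
-/

open MeasureTheory Set Filter Topology
open scoped ENNReal

namespace Vale.Agent.P142.H521

noncomputable section

/-- **Schur's test.** -/
theorem schur {X : Type*} [MeasurableSpace X] (μ : Measure X) [SFinite μ] {p : ℝ} (hp : 1 < p)
    {κ : X → X → ℝ≥0∞} (hκ : Measurable (Function.uncurry κ)) {e G : X → ℝ≥0∞}
    (he : Measurable e) (hG : Measurable G) (hG0 : ∀ᵐ y ∂μ, G y ≠ 0) (hG1 : ∀ᵐ y ∂μ, G y ≠ ⊤)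
    {C1 C2 : ℝ≥0∞}
    (ha : ∀ᵐ x ∂μ, (∫⁻ y, κ x y * G y ^ (1 / (p - 1)) ∂μ) ^ (p - 1) ≤ C1 * e x)
    (hb : ∀ᵐ y ∂μ, ∫⁻ x, e x * κ x y ∂μ ≤ C2 * G y)
    {u : X → ℝ≥0∞} (hu : Measurable u) :
    ∫⁻ x, (∫⁻ y, κ x y * u y ∂μ) ^ p ∂μ ≤ C1 * C2 * ∫⁻ y, u y ^ p ∂μ := by
  have hp0 : 0 < p := by linarith
  have hp1 : 0 < p - 1 := by linarith
  set q : ℝ := p / (p - 1) with hq
  have hq0 : 0 < q := by positivity
  have hpq : p.HolderConjugate q := Real.HolderConjugate.conjExponent hp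
  have hx : ∀ᵐ x ∂μ, (∫⁻ y, κ x y * u y ∂μ) ^ p ≤
      C1 * (e x * ∫⁻ y, κ x y * (u y ^ p * (G y)⁻¹) ∂μ) := by
    filter_upwards [ha] with x hx
    have hκx : Measurable (κ x) := hκ.of_uncurry_left
    have h1 := ENNReal.lintegral_mul_le_Lp_mul_Lq μ hpq
      (f := fun y => κ x y ^ (1 / p) * u y * G y ^ (-(1 / p)))
      (g := fun y => κ x y ^ (1 / q) * G y ^ (1 / p))
      (((hκx.pow_const _).mul hu).mul (hG.pow_const _)).aemeasurable
      ((hκx.pow_const _).mul (hG.pow_const _)).aemeasurable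
    have h2 : ∫⁻ y, κ x y * u y ∂μ = ∫⁻ y, ((fun y => κ x y ^ (1 / p) * u y * G y ^ (-(1 / p))) *
        fun y => κ x y ^ (1 / q) * G y ^ (1 / p)) y ∂μ := by
      apply lintegral_congr_ae
      filter_upwards [hG0, hG1] with y hy0 hy1
      simp only [Pi.mul_apply]
      have e1 : κ x y = κ x y ^ (1 / p) * κ x y ^ (1 / q) := by
        rw [← ENNReal.rpow_add_of_nonneg _ _ (by positivity) (by positivity)]
        have : 1 / p + 1 / q = 1 := by
          have := hpq.inv_add_inv_eq_one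
          simpa [one_div] using this
        rw [this, ENNReal.rpow_one]
      have e2 : G y ^ (-(1 / p)) * G y ^ (1 / p) = 1 := by
        rw [← ENNReal.rpow_add _ _ hy0 hy1, neg_add_cancel, ENNReal.rpow_zero]
      calc κ x y * u y = κ x y ^ (1 / p) * κ x y ^ (1 / q) * u y *
            (G y ^ (-(1 / p)) * G y ^ (1 / p)) := by rw [← e1, e2, mul_one]
        _ = _ := by ring
    have h3 : ∫⁻ y, (κ x y ^ (1 / p) * u y * G y ^ (-(1 / p))) ^ p ∂μ =
        ∫⁻ y, κ x y * (u y ^ p * (G y)⁻¹) ∂μ := by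
      apply lintegral_congr
      intro y
      rw [ENNReal.mul_rpow_of_nonneg _ _ hp0.le, ENNReal.mul_rpow_of_nonneg _ _ hp0.le,
        ← ENNReal.rpow_mul, ← ENNReal.rpow_mul, one_div_mul_cancel hp0.ne', ENNReal.rpow_one,
        neg_mul, one_div_mul_cancel hp0.ne', ENNReal.rpow_neg_one, mul_assoc]
    have h4 : ∫⁻ y, (κ x y ^ (1 / q) * G y ^ (1 / p)) ^ q ∂μ =
        ∫⁻ y, κ x y * G y ^ (1 / (p - 1)) ∂μ := by
      apply lintegral_congr
      intro y
      rw [ENNReal.mul_rpow_of_nonneg _ _ hq0.le, ← ENNReal.rpow_mul, ← ENNReal.rpow_mul,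
        one_div_mul_cancel hq0.ne', ENNReal.rpow_one]
      congr 2
      rw [hq]
      field_simp
    calc (∫⁻ y, κ x y * u y ∂μ) ^ p
        ≤ ((∫⁻ y, κ x y * (u y ^ p * (G y)⁻¹) ∂μ) ^ (1 / p) *
          (∫⁻ y, κ x y * G y ^ (1 / (p - 1)) ∂μ) ^ (1 / q)) ^ p := by
          apply ENNReal.rpow_le_rpow _ hp0.le
          rw [h2]
          refine h1.trans (le_of_eq ?_)
          rw [h3, h4]
      _ = (∫⁻ y, κ x y * (u y ^ p * (G y)⁻¹) ∂μ) *
          (∫⁻ y, κ x y * G y ^ (1 / (p - 1)) ∂μ) ^ (p - 1) := by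
          rw [ENNReal.mul_rpow_of_nonneg _ _ hp0.le, ← ENNReal.rpow_mul, ← ENNReal.rpow_mul,
            one_div_mul_cancel hp0.ne', ENNReal.rpow_one]
          congr 2
          rw [hq]
          field_simp
      _ ≤ (∫⁻ y, κ x y * (u y ^ p * (G y)⁻¹) ∂μ) * (C1 * e x) := by gcongr
      _ = _ := by ring
  have hm3 : Measurable (Function.uncurry fun x y => e x * (κ x y * (u y ^ p * (G y)⁻¹))) :=
    (he.comp measurable_fst).mul (hκ.mul
      (((hu.pow_const p).mul hG.inv).comp measurable_snd))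
  have hmain : ∫⁻ x, e x * ∫⁻ y, κ x y * (u y ^ p * (G y)⁻¹) ∂μ ∂μ ≤ C2 * ∫⁻ y, u y ^ p ∂μ := by
    calc ∫⁻ x, e x * ∫⁻ y, κ x y * (u y ^ p * (G y)⁻¹) ∂μ ∂μ
        = ∫⁻ x, ∫⁻ y, e x * (κ x y * (u y ^ p * (G y)⁻¹)) ∂μ ∂μ := by
          apply lintegral_congr
          intro x
          rw [lintegral_const_mul]
          exact (hκ.of_uncurry_left).mul ((hu.pow_const p).mul hG.inv)
      _ = ∫⁻ y, ∫⁻ x, e x * (κ x y * (u y ^ p * (G y)⁻¹)) ∂μ ∂μ :=
          lintegral_lintegral_swap hm3.aemeasurable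
      _ = ∫⁻ y, (∫⁻ x, e x * κ x y ∂μ) * (u y ^ p * (G y)⁻¹) ∂μ := by
          apply lintegral_congr
          intro y
          rw [← lintegral_mul_const]
          · apply lintegral_congr
            intro x
            ring
          · exact he.mul (hκ.of_uncurry_right)
      _ ≤ ∫⁻ y, C2 * u y ^ p ∂μ := by
          apply lintegral_mono_ae
          filter_upwards [hb, hG0, hG1] with y hy hy0 hy1
          calc (∫⁻ x, e x * κ x y ∂μ) * (u y ^ p * (G y)⁻¹)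
              ≤ (C2 * G y) * (u y ^ p * (G y)⁻¹) := by gcongr
            _ = C2 * u y ^ p * (G y * (G y)⁻¹) := by ring
            _ = C2 * u y ^ p := by rw [ENNReal.mul_inv_cancel hy0 hy1, mul_one]
      _ = _ := lintegral_const_mul _ (hu.pow_const p)
  have hme : Measurable fun x => e x * ∫⁻ y, κ x y * (u y ^ p * (G y)⁻¹) ∂μ := by
    apply he.mul
    exact Measurable.lintegral_prod_right (hκ.mul
      (((hu.pow_const p).mul hG.inv).comp measurable_snd))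
  calc ∫⁻ x, (∫⁻ y, κ x y * u y ∂μ) ^ p ∂μ
      ≤ ∫⁻ x, C1 * (e x * ∫⁻ y, κ x y * (u y ^ p * (G y)⁻¹) ∂μ) ∂μ := lintegral_mono_ae hx
    _ = C1 * ∫⁻ x, e x * ∫⁻ y, κ x y * (u y ^ p * (G y)⁻¹) ∂μ ∂μ := lintegral_const_mul _ hme
    _ ≤ C1 * (C2 * ∫⁻ y, u y ^ p ∂μ) := by gcongr
    _ = _ := by ring

end

end Vale.Agent.P142.H521
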