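import Vale.Agent.P142.H521.Est
import Vale.Agent.P142.H521.Schur

/-!
P142, Bergman projection: boundedness on `L^p`, `4/3 < p < 4`, half-plane form.
-/

open Complex MeasureTheory Metric Set Filter Topology
open scoped Real ComplexConjugate ENNReal

namespace Vale.Agent.P142.H521

open Vale.Agent.P142 Vale.Agent.P142.H838

noncomputable section

lemma kk_pos {W : Set ℂ} {Φ : ℂ → ℂ} (h : HConf W Φ) {c w : ℂ} (hc : c ∈ W) (hw : w ∈ W) :
    0 < kk Φ c w := by
  have h1 : 0 < (Φ c).im := h.2.2.mapsTo hc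
  have h2 : 0 < ‖Φ w - conj (Φ c)‖ := norm_sub_pos (h.2.2.mapsTo hw) (h.2.2.mapsTo hc)
  unfold kk
  positivity

lemma measurable_kk {Φ : ℂ → ℂ} (hm : Measurable Φ) :
    Measurable (Function.uncurry fun c w => kk Φ c w) := by
  unfold kk Function.uncurry
  exact ((Complex.measurable_im.comp (hm.comp measurable_fst)).pow_const 6).mul
    ((((hm.comp measurable_snd).sub
      (Complex.continuous_conj.measurable.comp (hm.comp measurable_fst))).norm.pow_const 8).inv)

/-- **(E1)**: the localised Brennan estimate with a boundary weight -/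
theorem est1 {s : ℝ} (hs1 : 4 / 3 < s) (hs2 : s < 4) : ∃ β₀ : ℝ, 0 < β₀ ∧
    ∀ β : ℝ, 0 ≤ β → β ≤ β₀ → ∃ C : ℝ, 0 ≤ C ∧
    ∀ (W : Set ℂ) (Φ : ℂ → ℂ), HConf W Φ → Measurable Φ → ∀ c ∈ W,
    ∫⁻ w in W, ENNReal.ofReal (kk Φ c w * (‖deriv Φ w‖ ^ s * (Φ w).im ^ (-β))) ≤
      ENNReal.ofReal (C * (‖deriv Φ c‖ ^ (s - 2) * (Φ c).im ^ (-β))) := by
  set ε : ℝ := min ((4 - s) / 4) (s - 4 / 3) with hε
  have hε0 : 0 < ε := lt_min (by linarith) (by linarith)
  have hε1 : ε ≤ (4 - s) / 4 := min_le_left _ _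
  have hε2 : ε ≤ s - 4 / 3 := min_le_right _ _
  set q1 : ℝ := 1 + ε with hq1
  set q2 : ℝ := (1 + ε) / ε with hq2
  have hq10 : 0 < q1 := by positivity
  have hq20 : 0 < q2 := by positivity
  have hpq : q1.HolderConjugate q2 := by
    rw [Real.holderConjugate_iff]
    refine ⟨by linarith, ?_⟩
    rw [hq1, hq2]
    field_simp
  have hsum : 1 / q1 + 1 / q2 = 1 := by
    have := hpq.inv_add_inv_eq_one
    simpa [one_div] using this
  set s1 : ℝ := 2 + (s - 2) * q1 with hs1d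
  have hs11 : 4 / 3 < s1 := by
    rw [hs1d, hq1]
    nlinarith
  have hs12 : s1 < 4 := by
    rw [hs1d, hq1]
    nlinarith
  obtain ⟨C1, hC1, h1⟩ := est0 hs11 hs12
  refine ⟨1 / (2 * q2), by positivity, fun β hβ0 hβ1 => ?_⟩
  have hβq : β * q2 ≤ 1 / 2 := by
    rw [le_div_iff₀ (by positivity)] at hβ1
    linarith
  have hβq0 : 0 ≤ β * q2 := by positivity
  set σ : ℝ := -(β * q2) with hσ
  have hσ1 : -1 < σ := by rw [hσ]; linarith
  have hσ2 : σ < 6 := by rw [hσ]; linarith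
  have hσ3 : 0 < σ + 1 := by linarith
  have hσ4 : 0 < 6 - σ := by linarith
  set C2 : ℝ := π * (1 / (σ + 1) + 1 / (6 - σ)) with hC2
  have hC20 : 0 ≤ C2 := by
    have := Real.pi_pos
    positivity
  refine ⟨C1 ^ (1 / q1) * C2 ^ (1 / q2), by positivity, fun W Φ h hm c hc => ?_⟩
  have hyc : 0 < (Φ c).im := h.2.2.mapsTo hc
  have hlc := lam_pos h hc
  have hmk : Measurable fun w => kk Φ c w := (measurable_kk hm).of_uncurry_left
  have hml : Measurable fun w => ‖deriv Φ w‖ := (measurable_deriv Φ).norm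
  have hmy : Measurable fun w => (Φ w).im := Complex.measurable_im.comp hm
  set F : ℂ → ℝ≥0∞ := fun w => ENNReal.ofReal (kk Φ c w ^ (1 / q1) * ‖deriv Φ w‖ ^ (s - 2 / q2))
    with hF
  set G : ℂ → ℝ≥0∞ := fun w => ENNReal.ofReal (kk Φ c w ^ (1 / q2) *
    (‖deriv Φ w‖ ^ (2 / q2) * (Φ w).im ^ (-β))) with hG
  have hFm : Measurable F :=
    ENNReal.measurable_ofReal.comp ((hmk.pow_const _).mul (hml.pow_const _))
  have hGm : Measurable G :=
    ENNReal.measurable_ofReal.comp ((hmk.pow_const _).mul ((hml.pow_const _).mul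
      (hmy.pow_const _)))
  have h2 := ENNReal.lintegral_mul_le_Lp_mul_Lq (volume.restrict W) hpq hFm.aemeasurable
    hGm.aemeasurable
  have e0 : ∫⁻ w in W, ENNReal.ofReal (kk Φ c w * (‖deriv Φ w‖ ^ s * (Φ w).im ^ (-β))) =
      ∫⁻ w in W, (F * G) w := by
    apply setLIntegral_congr_fun h.1.measurableSet
    intro w hw
    have hk := kk_pos h hc hw
    have hl := lam_pos h hw
    have hy : 0 < (Φ w).im := h.2.2.mapsTo hw
    simp only [Pi.mul_apply, hF, hG]
    rw [← ENNReal.ofReal_mul (by positivity)]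
    congr 1
    have a1 : kk Φ c w ^ (1 / q1) * kk Φ c w ^ (1 / q2) = kk Φ c w := by
      rw [← Real.rpow_add hk, hsum, Real.rpow_one]
    have a2 : ‖deriv Φ w‖ ^ (s - 2 / q2) * ‖deriv Φ w‖ ^ (2 / q2) = ‖deriv Φ w‖ ^ s := by
      rw [← Real.rpow_add hl]
      congr 1
      ring
    calc kk Φ c w * (‖deriv Φ w‖ ^ s * (Φ w).im ^ (-β)) =
          (kk Φ c w ^ (1 / q1) * kk Φ c w ^ (1 / q2)) *
          ((‖deriv Φ w‖ ^ (s - 2 / q2) * ‖deriv Φ w‖ ^ (2 / q2)) * (Φ w).im ^ (-β)) := by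
            rw [a1, a2]
      _ = _ := by ring
  have e1 : ∫⁻ w in W, F w ^ q1 = ∫⁻ w in W, ENNReal.ofReal (kk Φ c w * ‖deriv Φ w‖ ^ s1) := by
    apply setLIntegral_congr_fun h.1.measurableSet
    intro w hw
    have hk := kk_pos h hc hw
    have hl := lam_pos h hw
    simp only [hF]
    rw [ENNReal.ofReal_rpow_of_nonneg (by positivity) hq10.le]
    congr 1
    rw [Real.mul_rpow (by positivity) (by positivity), ← Real.rpow_mul hk.le,
      ← Real.rpow_mul hl.le, one_div_mul_cancel hq10.ne', Real.rpow_one]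
    congr 2
    rw [hs1d, hq2, hq1]
    field_simp
    ring
  have e2 : ∫⁻ w in W, G w ^ q2 = ∫⁻ w in W, ENNReal.ofReal ((Φ c).im ^ 6) *
      ENNReal.ofReal (‖deriv Φ w‖ ^ 2 * ((Φ w).im ^ σ * (‖Φ w - conj (Φ c)‖ ^ 8)⁻¹)) := by
    apply setLIntegral_congr_fun h.1.measurableSet
    intro w hw
    have hk := kk_pos h hc hw
    have hl := lam_pos h hw
    have hy : 0 < (Φ w).im := h.2.2.mapsTo hw
    simp only [hG]
    rw [ENNReal.ofReal_rpow_of_nonneg (by positivity) hq20.le, ← ENNReal.ofReal_mul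
      (by positivity)]
    congr 1
    rw [Real.mul_rpow (by positivity) (by positivity), Real.mul_rpow (by positivity)
      (by positivity), ← Real.rpow_mul hk.le, ← Real.rpow_mul hl.le, ← Real.rpow_mul hy.le,
      one_div_mul_cancel hq20.ne', Real.rpow_one, div_mul_cancel₀ _ hq20.ne', Real.rpow_two,
      neg_mul, ← hσ]
    unfold kk
    ring
  rw [e0]
  refine h2.trans ?_
  rw [e1, e2, lintegral_const_mul' _ _ ENNReal.ofReal_ne_top]
  have h3 := h1 W Φ h c hc
  have h4 := est2 hσ1 hσ2 h hc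
  calc (∫⁻ w in W, ENNReal.ofReal (kk Φ c w * ‖deriv Φ w‖ ^ s1)) ^ (1 / q1) *
        (ENNReal.ofReal ((Φ c).im ^ 6) * ∫⁻ w in W, ENNReal.ofReal
        (‖deriv Φ w‖ ^ 2 * ((Φ w).im ^ σ * (‖Φ w - conj (Φ c)‖ ^ 8)⁻¹))) ^ (1 / q2)
      ≤ (ENNReal.ofReal (C1 * ‖deriv Φ c‖ ^ (s1 - 2))) ^ (1 / q1) *
        (ENNReal.ofReal ((Φ c).im ^ 6) * ENNReal.ofReal (C2 * (Φ c).im ^ (σ - 6))) ^ (1 / q2) := by
        gcongr
    _ = ENNReal.ofReal ((C1 * ‖deriv Φ c‖ ^ (s1 - 2)) ^ (1 / q1) *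
        ((Φ c).im ^ 6 * (C2 * (Φ c).im ^ (σ - 6))) ^ (1 / q2)) := by
        rw [← ENNReal.ofReal_mul (by positivity), ENNReal.ofReal_rpow_of_nonneg (by positivity)
          (by positivity), ENNReal.ofReal_rpow_of_nonneg (by positivity)
          (by positivity), ← ENNReal.ofReal_mul (by positivity)]
    _ = _ := by
        congr 1
        have a1 : (Φ c).im ^ 6 * (C2 * (Φ c).im ^ (σ - 6)) = C2 * (Φ c).im ^ σ := by
          have : (Φ c).im ^ (σ - 6) = (Φ c).im ^ σ * ((Φ c).im ^ 6)⁻¹ := by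
            have e : σ - 6 = σ - (6 : ℕ) := by push_cast; ring
            rw [e, Real.rpow_sub_natCast hyc.ne']
            rfl
          rw [this]
          field_simp
        rw [a1, Real.mul_rpow hC1 (by positivity), Real.mul_rpow hC20 (by positivity),
          ← Real.rpow_mul hlc.le, ← Real.rpow_mul hyc.le]
        have a2 : (s1 - 2) * (1 / q1) = s - 2 := by
          rw [hs1d]
          field_simp
          ring
        have a3 : σ * (1 / q2) = -β := by
          rw [hσ]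
          field_simp
        rw [a2, a3]
        ring

end

end Vale.Agent.P142.H521
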