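import Vale.Agent.P142.H521.PBdd

/-!
P142, Bergman projection: boundedness of the positive Bergman operator on `L^p(W)`,
`4/3 < p < 4`, in the half-plane coordinate (conclusion).
-/

open Complex MeasureTheory Metric Set Filter Topology
open scoped Real ComplexConjugate ENNReal

namespace Vale.Agent.P142.H521

open Vale.Agent.P142 Vale.Agent.P142.H838

noncomputable section

lemma comp_dom {W : Set ℂ} {Φ : ℂ → ℂ} (h : HConf W Φ) (hm : Measurable Φ) {g : ℂ → ℝ≥0∞}
    (hg : Measurable g) {z : ℂ} (hz : z ∈ W) :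
    ∫⁻ w in W, ENNReal.ofReal (‖deriv Φ z‖ * ‖deriv Φ w‖ * (‖Φ z - conj (Φ w)‖ ^ 2)⁻¹) * g w ≤
      ENNReal.ofReal (4 ^ 16 / π) *
        ∫⁻ c in W, kap Φ c z * ∫⁻ w in W, kap Φ c w * g w := by
  have hκ := measurable_kap hm
  have hm3 : Measurable (Function.uncurry fun w c => kap Φ c z * kap Φ c w * g w) := by
    refine Measurable.mul (Measurable.mul ?_ (measurable_kap' hm)) (hg.comp measurable_fst)
    exact (Measurable.of_uncurry_right hκ (y := z)).comp measurable_snd
  calc _ ≤ ∫⁻ w in W, ENNReal.ofReal (4 ^ 16 / π) *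
        ∫⁻ c in W, kap Φ c z * kap Φ c w * g w := by
        apply setLIntegral_mono' h.1.measurableSet
        intro w hw
        have h1 : ∫⁻ c in W, kap Φ c z * kap Φ c w * g w =
            (∫⁻ c in W, kap Φ c z * kap Φ c w) * g w := by
          rw [lintegral_mul_const]
          exact (Measurable.of_uncurry_right hκ (y := z)).mul
            (Measurable.of_uncurry_right hκ (y := w))
        rw [h1, ← mul_assoc]
        exact mul_le_mul_left (kernel_dom h hz hw) _
    _ = ENNReal.ofReal (4 ^ 16 / π) * ∫⁻ w in W, ∫⁻ c in W, kap Φ c z * kap Φ c w * g w :=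
        lintegral_const_mul' _ _ ENNReal.ofReal_ne_top
    _ = ENNReal.ofReal (4 ^ 16 / π) * ∫⁻ c in W, ∫⁻ w in W, kap Φ c z * kap Φ c w * g w := by
        rw [lintegral_lintegral_swap hm3.aemeasurable]
    _ = _ := by
        congr 1
        apply lintegral_congr
        intro c
        rw [← lintegral_const_mul]
        · apply lintegral_congr
          intro w
          rw [mul_assoc]
        · exact (Measurable.of_uncurry_left hκ (x := c)).mul hg

/-- **boundedness in the half-plane coordinate** -/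
theorem bdd_half {p : ℝ} (hp1 : 4 / 3 < p) (hp2 : p < 4) : ∃ C : ℝ≥0∞, C ≠ ⊤ ∧
    ∀ (W : Set ℂ) (Φ : ℂ → ℂ), HConf W Φ → Measurable Φ → ∀ g : ℂ → ℝ≥0∞, Measurable g →
    ∫⁻ z in W, (∫⁻ w in W,
      ENNReal.ofReal (‖deriv Φ z‖ * ‖deriv Φ w‖ * (‖Φ z - conj (Φ w)‖ ^ 2)⁻¹) * g w) ^ p ≤
      C * ∫⁻ w in W, g w ^ p := by
  have hp : 1 < p := by linarith
  have hp0 : 0 < p - 1 := by linarith
  have hq1 : 4 / 3 < p / (p - 1) := by
    rw [lt_div_iff₀ hp0]; linarith
  have hq2 : p / (p - 1) < 4 := by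
    rw [div_lt_iff₀ hp0]; linarith
  obtain ⟨β₀, hβ0, hβ⟩ := est1 hp1 hp2
  obtain ⟨β₁, hβ1, hβ'⟩ := est1 hq1 hq2
  set b : ℝ := min (min β₀ ((p - 1) * β₁)) (min 1 (p - 1)) with hbd
  have hb0 : 0 < b := lt_min (lt_min hβ0 (by positivity)) (lt_min one_pos hp0)
  have hb1 : b ≤ β₀ := (min_le_left _ _).trans (min_le_left _ _)
  have hb2 : b ≤ (p - 1) * β₁ := (min_le_left _ _).trans (min_le_right _ _)
  have hb3 : b ≤ 1 := (min_le_right _ _).trans (min_le_left _ _)
  have hb4 : b ≤ p - 1 := (min_le_right _ _).trans (min_le_right _ _)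
  have hb5 : b * (1 / (p - 1)) ≤ β₁ := by
    rw [mul_one_div, div_le_iff₀ hp0]; linarith
  have hb6 : b * (1 / (p - 1)) ≤ 1 := by
    rw [mul_one_div, div_le_iff₀ hp0]; linarith
  have hb7 : 0 ≤ b * (1 / (p - 1)) := by positivity
  obtain ⟨A, hA, hA'⟩ := hβ b hb0.le hb1
  obtain ⟨A', hA1, hA1'⟩ := hβ' (b * (1 / (p - 1))) hb7 hb5
  refine ⟨ENNReal.ofReal (4 ^ 16 / π) ^ p *
    ((ENNReal.ofReal (π * (1 / (7 - b * (1 / (p - 1))) + 1 / (b * (1 / (p - 1))))) ^ (p - 1) *
        ENNReal.ofReal A) *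
      (ENNReal.ofReal A' ^ (p - 1) * ENNReal.ofReal (π * (1 / (7 - b) + 1 / b)))), ?_, ?_⟩
  · apply ENNReal.mul_ne_top
    · exact ENNReal.rpow_ne_top_of_nonneg (by linarith) ENNReal.ofReal_ne_top
    apply ENNReal.mul_ne_top
    · exact ENNReal.mul_ne_top (ENNReal.rpow_ne_top_of_nonneg hp0.le ENNReal.ofReal_ne_top)
        ENNReal.ofReal_ne_top
    · exact ENNReal.mul_ne_top (ENNReal.rpow_ne_top_of_nonneg hp0.le ENNReal.ofReal_ne_top)
        ENNReal.ofReal_ne_top
  · intro W Φ h hm g hg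
    have hu : Measurable fun c => ∫⁻ w in W, kap Φ c w * g w :=
      Measurable.lintegral_prod_right' (f := fun x : ℂ × ℂ => kap Φ x.1 x.2 * g x.2)
        ((measurable_kap hm).mul (hg.comp measurable_snd))
    calc _ ≤ ∫⁻ z in W, (ENNReal.ofReal (4 ^ 16 / π) *
          ∫⁻ c in W, kap Φ c z * ∫⁻ w in W, kap Φ c w * g w) ^ p := by
          apply setLIntegral_mono' h.1.measurableSet
          intro z hz
          exact ENNReal.rpow_le_rpow (comp_dom h hm hg hz) (by linarith)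
      _ = ENNReal.ofReal (4 ^ 16 / π) ^ p *
          ∫⁻ z in W, (∫⁻ c in W, kap Φ c z * ∫⁻ w in W, kap Φ c w * g w) ^ p := by
          rw [← lintegral_const_mul' _ _
            (ENNReal.rpow_ne_top_of_nonneg (by linarith) ENNReal.ofReal_ne_top)]
          apply lintegral_congr
          intro z
          rw [ENNReal.mul_rpow_of_nonneg _ _ (by linarith)]
      _ ≤ ENNReal.ofReal (4 ^ 16 / π) ^ p *
          ((ENNReal.ofReal (π * (1 / (7 - b * (1 / (p - 1))) +
            1 / (b * (1 / (p - 1))))) ^ (p - 1) * ENNReal.ofReal A) *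
            ∫⁻ c in W, (∫⁻ w in W, kap Φ c w * g w) ^ p) :=
          mul_le_mul_right (schur2 hp hA hb0 (by linarith) h hm (hA' W Φ h hm) hu) _
      _ ≤ ENNReal.ofReal (4 ^ 16 / π) ^ p *
          ((ENNReal.ofReal (π * (1 / (7 - b * (1 / (p - 1))) +
            1 / (b * (1 / (p - 1))))) ^ (p - 1) * ENNReal.ofReal A) *
            (ENNReal.ofReal A' ^ (p - 1) * ENNReal.ofReal (π * (1 / (7 - b) + 1 / b)) *
              ∫⁻ w in W, g w ^ p)) :=
          mul_le_mul_right (mul_le_mul_right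
            (schur1 hp hA1 hb0 (by linarith) h hm (hA1' W Φ h hm) hg) _) _
      _ = _ := by ring

end

end Vale.Agent.P142.H521
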