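import Vale.Agent.P142.H521.Bdd2

/-!
P142, Bergman projection: boundedness of the positive Bergman operator on `L^p(W)`,
`4/3 < p < 4`, in the disc coordinate.
-/

open Complex MeasureTheory Metric Set Filter Topology
open scoped Real ComplexConjugate ENNReal

namespace Vale.Agent.P142.H521

open Vale.Agent.P142 Vale.Agent.P142.H838

noncomputable section

lemma hconf_meas {W : Set ℂ} {Φ : ℂ → ℂ} (h : HConf W Φ) : ∃ Ψ : ℂ → ℂ, Measurable Ψ ∧
    HConf W Ψ ∧ (∀ w ∈ W, Ψ w = Φ w) ∧ ∀ w ∈ W, deriv Ψ w = deriv Φ w := by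
  classical
  obtain ⟨hW, hd, hb⟩ := h
  set Ψ : ℂ → ℂ := W.piecewise Φ 0 with hΨ
  have h1 : ∀ w ∈ W, Ψ w = Φ w := fun w hw => by simp [hΨ, hw]
  have h2 : ∀ w ∈ W, Ψ =ᶠ[𝓝 w] Φ := fun w hw =>
    Filter.mem_of_superset (hW.mem_nhds hw) fun x hx => h1 x hx
  refine ⟨Ψ, ?_, ⟨hW, ?_, ?_⟩, h1, fun w hw => (h2 w hw).deriv_eq⟩
  · exact hd.continuousOn.measurable_piecewise continuousOn_const hW.measurableSet
  · exact hd.congr h1
  · exact hb.congr fun w hw => (h1 w hw).symm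

/-- **boundedness in the disc coordinate** -/
theorem bdd_disc {p : ℝ} (hp1 : 4 / 3 < p) (hp2 : p < 4) : ∃ C : ℝ≥0∞, C ≠ ⊤ ∧
    ∀ (W : Set ℂ) (φ : ℂ → ℂ), IsOpen W → DifferentiableOn ℂ φ W → BijOn φ W (ball 0 1) →
    ∀ g : ℂ → ℝ≥0∞, AEMeasurable g (volume.restrict W) →
    ∫⁻ z in W, (∫⁻ w in W,
      ENNReal.ofReal (‖deriv φ z‖ * ‖deriv φ w‖ * (‖1 - φ z * conj (φ w)‖ ^ 2)⁻¹) * g w) ^ p ≤
      C * ∫⁻ w in W, g w ^ p := by
  obtain ⟨C, hC, h0⟩ := bdd_half hp1 hp2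
  refine ⟨C, hC, fun W φ hW hd hb g hg => ?_⟩
  obtain ⟨h1, h2, h3⟩ := hconf_of_disc hW hd hb
  obtain ⟨Ψ, hm, h4, h5, h6⟩ := hconf_meas h1
  obtain ⟨g', hg', hgg⟩ := hg
  have e1 := h0 W Ψ h4 hm g' hg'
  have e2 : ∫⁻ w in W, g w ^ p = ∫⁻ w in W, g' w ^ p := by
    apply lintegral_congr_ae
    filter_upwards [hgg] with w hw
    rw [hw]
  rw [e2]
  refine le_trans (le_of_eq ?_) e1
  apply setLIntegral_congr_fun hW.measurableSet
  intro z hz
  simp only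
  congr 1
  apply lintegral_congr_ae
  filter_upwards [hgg, ae_restrict_mem hW.measurableSet] with w hw hwW
  rw [hw]
  congr 2
  rw [h6 z hz, h6 w hwW, h5 z hz, h5 w hwW, h2 z hz, h2 w hwW, h3 z hz w hwW]
  have hz1 : ‖φ z‖ < 1 := by simpa using hb.mapsTo hz
  have hw1 : ‖φ w‖ < 1 := by simpa using hb.mapsTo hwW
  have k1 : 0 < ‖1 - φ z‖ := by
    apply norm_pos_iff.mpr
    intro h
    rw [← sub_eq_zero.mp h] at hz1
    simp at hz1
  have k2 : 0 < ‖1 - φ w‖ := by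
    apply norm_pos_iff.mpr
    intro h
    rw [← sub_eq_zero.mp h] at hw1
    simp at hw1
  have k3 : 0 < ‖1 - φ z * conj (φ w)‖ := by
    apply norm_pos_iff.mpr
    intro h
    have : ‖φ z * conj (φ w)‖ < 1 := by
      rw [norm_mul, Complex.norm_conj]
      nlinarith [norm_nonneg (φ z), norm_nonneg (φ w)]
    rw [← sub_eq_zero.mp h] at this
    simp at this
  field_simp

end

end Vale.Agent.P142.H521
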