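import Vale.Agent.P142.H521.Mob

/-!
P142, Bergman projection: the basic estimates for conformal maps onto the half-plane.
-/

open Complex MeasureTheory Metric Set Filter Topology
open scoped Real ComplexConjugate ENNReal

namespace Vale.Agent.P142.H521

open Vale.Agent.P142 Vale.Agent.P142.H838

noncomputable section

/-- the averaging kernel -/
def kk (Φ : ℂ → ℂ) (c w : ℂ) : ℝ := (Φ c).im ^ 6 * (‖Φ w - conj (Φ c)‖ ^ 8)⁻¹

lemma kk_nonneg {W : Set ℂ} {Φ : ℂ → ℂ} (h : HConf W Φ) {c : ℂ} (hc : c ∈ W) (w : ℂ) :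
    0 ≤ kk Φ c w := by
  have : 0 < (Φ c).im := h.2.2.mapsTo hc
  unfold kk
  positivity

lemma lam_pos {W : Set ℂ} {Φ : ℂ → ℂ} (h : HConf W Φ) {c : ℂ} (hc : c ∈ W) :
    0 < ‖deriv Φ c‖ :=
  norm_pos_iff.mpr (injOn_deriv_ne_zero h.1 h.2.1 h.2.2.injOn hc)

/-- **(E0)**: Brennan's estimate, localised -/
theorem est0 {s : ℝ} (hs1 : 4 / 3 < s) (hs2 : s < 4) : ∃ C : ℝ, 0 ≤ C ∧
    ∀ (W : Set ℂ) (Φ : ℂ → ℂ), HConf W Φ → ∀ c ∈ W,
    ∫⁻ w in W, ENNReal.ofReal (kk Φ c w * ‖deriv Φ w‖ ^ s) ≤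
      ENNReal.ofReal (C * ‖deriv Φ c‖ ^ (s - 2)) := by
  obtain ⟨C, hC, h0⟩ := strong_conf
  have hs3 : 0 < (s - 4 / 3) * (4 - s) := mul_pos (by linarith) (by linarith)
  refine ⟨2 ^ (2 - 2 * s) * (C / ((s - 4 / 3) * (4 - s))), by positivity,
    fun W Φ h c hc => ?_⟩
  obtain ⟨hd, hb, hn⟩ := comp_mob h hc
  have hcH : Φ c ∈ HH := h.2.2.mapsTo hc
  have hy : 0 < (Φ c).im := hcH
  have hl := lam_pos h hc
  have h1 := h0 W _ h.1 hd hb c hc (by simp) s hs1 hs2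
  rw [hn c hc, norm_sub_conj_self hcH] at h1
  have h2 : ∀ w ∈ W, kk Φ c w * ‖deriv Φ w‖ ^ s ≤ ((Φ c).im ^ (s - 2) * 2 ^ (-s)) *
      ‖deriv (fun w => (Φ w - Φ c) / (Φ w - conj (Φ c))) w‖ ^ s := by
    intro w hw
    rw [hn w hw]
    have hwH : Φ w ∈ HH := h.2.2.mapsTo hw
    have hD : 0 < ‖Φ w - conj (Φ c)‖ := norm_sub_pos hwH hcH
    have hDy : (Φ c).im ≤ ‖Φ w - conj (Φ c)‖ := (im_le_norm_sub hwH hcH).2
    set y := (Φ c).im with hyd
    set D := ‖Φ w - conj (Φ c)‖ with hDd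
    have hlw := lam_pos h hw
    set l := ‖deriv Φ w‖ with hld
    have e1 : (l * (2 * y) / D ^ 2) ^ s = l ^ s * (2 ^ s * y ^ s) * (D ^ (2 * s))⁻¹ := by
      rw [Real.div_rpow (by positivity) (by positivity), Real.mul_rpow (by positivity)
        (by positivity), Real.mul_rpow (by positivity) (by positivity), div_eq_mul_inv]
      congr 2
      rw [← Real.rpow_natCast, ← Real.rpow_mul hD.le]
      norm_num
    have e2 : (y ^ (s - 2) * 2 ^ (-s)) * (l ^ s * (2 ^ s * y ^ s) * (D ^ (2 * s))⁻¹) =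
        (y ^ (2 * s) * (D ^ (2 * s))⁻¹) * (y ^ 2)⁻¹ * l ^ s := by
      have e3 : (2 : ℝ) ^ (-s) * 2 ^ s = 1 := by
        rw [← Real.rpow_add (by norm_num)]
        simp
      have e4 : y ^ (s - 2) * y ^ s = y ^ (2 * s) * (y ^ 2)⁻¹ := by
        rw [← Real.rpow_add hy, ← Real.rpow_natCast y 2, ← Real.rpow_neg hy.le,
          ← Real.rpow_add hy]
        congr 1
        push_cast
        ring
      calc _ = (2 ^ (-s) * 2 ^ s) * (y ^ (s - 2) * y ^ s) * l ^ s * (D ^ (2 * s))⁻¹ := by ring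
        _ = _ := by rw [e3, e4]; ring
    rw [e1, e2]
    unfold kk
    have e5 : y ^ 6 * (D ^ 8)⁻¹ = (y / D) ^ (8 : ℝ) * (y ^ 2)⁻¹ := by
      have : (8 : ℝ) = ((8 : ℕ) : ℝ) := by norm_num
      rw [this, Real.rpow_natCast]
      field_simp
    have e6 : y ^ (2 * s) * (D ^ (2 * s))⁻¹ = (y / D) ^ (2 * s) := by
      rw [Real.div_rpow hy.le hD.le, div_eq_mul_inv]
    rw [← hyd, ← hDd, e5, e6]
    have hyD : y / D ≤ 1 := (div_le_one hD).mpr hDy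
    have e7 : (y / D) ^ (8 : ℝ) ≤ (y / D) ^ (2 * s) :=
      Real.rpow_le_rpow_of_exponent_ge (by positivity) hyD (by linarith)
    have : 0 ≤ l ^ s := Real.rpow_nonneg hlw.le _
    gcongr
  calc ∫⁻ w in W, ENNReal.ofReal (kk Φ c w * ‖deriv Φ w‖ ^ s)
      ≤ ∫⁻ w in W, ENNReal.ofReal ((Φ c).im ^ (s - 2) * 2 ^ (-s)) *
        ENNReal.ofReal (‖deriv (fun w => (Φ w - Φ c) / (Φ w - conj (Φ c))) w‖ ^ s) := by
        apply setLIntegral_mono' h.1.measurableSet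
        intro w hw
        rw [← ENNReal.ofReal_mul (by positivity)]
        exact ENNReal.ofReal_le_ofReal (h2 w hw)
    _ = ENNReal.ofReal ((Φ c).im ^ (s - 2) * 2 ^ (-s)) * ∫⁻ w in W,
        ENNReal.ofReal (‖deriv (fun w => (Φ w - Φ c) / (Φ w - conj (Φ c))) w‖ ^ s) :=
        lintegral_const_mul' _ _ ENNReal.ofReal_ne_top
    _ ≤ _ := by
        refine (mul_le_mul_right h1 _).trans (le_of_eq ?_)
        rw [← ENNReal.ofReal_mul (by positivity)]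
        congr 1
        have e1 : ‖deriv Φ c‖ * (2 * (Φ c).im) / (2 * (Φ c).im) ^ 2 =
            ‖deriv Φ c‖ * (2⁻¹ * (Φ c).im⁻¹) := by
          field_simp
        have e2 : ((Φ c).im)⁻¹ ^ (s - 2) * (Φ c).im ^ (s - 2) = 1 := by
          rw [← Real.mul_rpow (by positivity) hy.le, inv_mul_cancel₀ hy.ne', Real.one_rpow]
        have e3 : (2 : ℝ)⁻¹ ^ (s - 2) * 2 ^ (-s) = 2 ^ (2 - 2 * s) := by
          rw [Real.inv_rpow (by norm_num), ← Real.rpow_neg (by norm_num),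
            ← Real.rpow_add (by norm_num)]
          congr 1
          ring
        rw [e1, Real.mul_rpow hl.le (by positivity), Real.mul_rpow (by norm_num) (by positivity),
          ← e3]
        calc _ = (((Φ c).im)⁻¹ ^ (s - 2) * (Φ c).im ^ (s - 2)) * ((2 : ℝ)⁻¹ ^ (s - 2) * 2 ^ (-s)) *
              (C / ((s - 4 / 3) * (4 - s))) * ‖deriv Φ c‖ ^ (s - 2) := by ring
          _ = _ := by rw [e2]; ring

/-- **(E2)**: the Forelli-Rudin estimates -/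
theorem est2 {s : ℝ} (hs : -1 < s) (hs2 : s < 6) {W : Set ℂ} {Φ : ℂ → ℂ} (h : HConf W Φ)
    {c : ℂ} (hc : c ∈ W) :
    ∫⁻ w in W, ENNReal.ofReal (‖deriv Φ w‖ ^ 2 *
      ((Φ w).im ^ s * (‖Φ w - conj (Φ c)‖ ^ 8)⁻¹)) ≤
      ENNReal.ofReal (π * (1 / (s + 1) + 1 / (6 - s)) * (Φ c).im ^ (s - 6)) := by
  refine le_trans (le_of_eq ?_) (lint_half hs hs2 (h.2.2.mapsTo hc))
  rw [← lint_cv h]
  apply setLIntegral_congr_fun h.1.measurableSet
  intro w _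
  simp only
  rw [← ENNReal.ofReal_mul (by positivity)]

/-- **(E3)**: the kernel is dominated by the composition of the averaging kernels -/
theorem est3 {W : Set ℂ} {Φ : ℂ → ℂ} (h : HConf W Φ) {z w : ℂ} (hz : z ∈ W) (hw : w ∈ W) :
    ENNReal.ofReal (π * (4 ^ 16)⁻¹ * (‖Φ z - conj (Φ w)‖ ^ 2)⁻¹) ≤
      ∫⁻ c in W, ENNReal.ofReal (‖deriv Φ c‖ ^ 2) * ENNReal.ofReal (kk Φ c z * kk Φ c w) := by
  have hzH : Φ z ∈ HH := h.2.2.mapsTo hz
  have hwH : Φ w ∈ HH := h.2.2.mapsTo hw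
  set ρ := ‖Φ z - conj (Φ w)‖ with hρd
  have hρ : 0 < ρ := norm_sub_pos hzH hwH
  have hzρ : (Φ z).im ≤ ρ := (im_le_norm_sub hzH hwH).1
  have hz0 : 0 < (Φ z).im := hzH
  set G : ℂ → ℝ≥0∞ := fun a => ENNReal.ofReal ((a.im ^ 6 * (‖Φ z - conj a‖ ^ 8)⁻¹) *
    (a.im ^ 6 * (‖Φ w - conj a‖ ^ 8)⁻¹)) with hG
  have h1 : ∫⁻ c in W, ENNReal.ofReal (‖deriv Φ c‖ ^ 2) *
      ENNReal.ofReal (kk Φ c z * kk Φ c w) = ∫⁻ a in HH, G a := lint_cv h G
  rw [h1]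
  set a0 : ℂ := ⟨(Φ z).re, 2 * ρ⟩ with ha0
  have hball : ∀ a ∈ ball a0 ρ, ρ < a.im ∧ ‖Φ z - conj a‖ ≤ 4 * ρ ∧ ‖Φ w - conj a‖ ≤ 4 * ρ := by
    intro a ha
    have ha1 : ‖a - a0‖ < ρ := by rwa [mem_ball, dist_eq_norm] at ha
    have h2 : |(a - a0).im| ≤ ‖a - a0‖ := Complex.abs_im_le_norm _
    have h3 : (a - a0).im = a.im - 2 * ρ := by simp [ha0]
    rw [h3] at h2
    have h4 := abs_le.mp (h2.trans ha1.le)
    have h2' := abs_lt.mp (lt_of_le_of_lt h2 ha1)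
    have h5 : ‖Φ z - a0‖ ≤ 2 * ρ := by
      have e : Φ z - a0 = (((Φ z).im - 2 * ρ : ℝ) : ℂ) * I := by
        apply Complex.ext <;> simp [ha0]
      rw [e, norm_mul, Complex.norm_I, mul_one, Complex.norm_real, Real.norm_eq_abs, abs_le]
      constructor <;> linarith
    have h6 : ‖Φ z - conj a0‖ ≤ 3 * ρ := by
      have e : Φ z - conj a0 = (((Φ z).im + 2 * ρ : ℝ) : ℂ) * I := by
        apply Complex.ext <;> simp [ha0]
      rw [e, norm_mul, Complex.norm_I, mul_one, Complex.norm_real, Real.norm_eq_abs, abs_le]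
      constructor <;> linarith
    refine ⟨by linarith [h2'.1], ?_, ?_⟩
    · calc ‖Φ z - conj a‖ = ‖(Φ z - conj a0) - conj (a - a0)‖ := by
            rw [map_sub]; congr 1; ring
        _ ≤ ‖Φ z - conj a0‖ + ‖conj (a - a0)‖ := norm_sub_le _ _
        _ ≤ 3 * ρ + ρ := by rw [Complex.norm_conj]; linarith
        _ = _ := by ring
    · calc ‖Φ w - conj a‖ = ‖(Φ w - conj (Φ z)) + (conj (Φ z - a0) - conj (a - a0))‖ := by
            rw [map_sub, map_sub]; congr 1; ring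
        _ ≤ ‖Φ w - conj (Φ z)‖ + ‖conj (Φ z - a0) - conj (a - a0)‖ := norm_add_le _ _
        _ ≤ ‖Φ w - conj (Φ z)‖ + (‖conj (Φ z - a0)‖ + ‖conj (a - a0)‖) := by
            gcongr; exact norm_sub_le _ _
        _ ≤ ρ + (2 * ρ + ρ) := by
            rw [Complex.norm_conj, Complex.norm_conj, norm_sub_symm (Φ w) (Φ z), ← hρd]
            linarith
        _ = _ := by ring
  have hsub : ball a0 ρ ⊆ HH := fun a ha => hρ.trans (hball a ha).1
  calc ENNReal.ofReal (π * (4 ^ 16)⁻¹ * (ρ ^ 2)⁻¹)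
      = ∫⁻ a in ball a0 ρ, ENNReal.ofReal ((4 ^ 16)⁻¹ * (ρ ^ 4)⁻¹) := by
        have hpi : ((NNReal.pi : NNReal) : ℝ≥0∞) = ENNReal.ofReal π := by
          rw [← NNReal.coe_real_pi, ENNReal.ofReal_coe_nnreal]
        rw [setLIntegral_const, Complex.volume_ball, hpi, ← ENNReal.ofReal_pow hρ.le,
          ← ENNReal.ofReal_mul (by positivity), ← ENNReal.ofReal_mul (by positivity)]
        congr 1
        field_simp
    _ ≤ ∫⁻ a in ball a0 ρ, G a := by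
        apply setLIntegral_mono' measurableSet_ball
        intro a ha
        obtain ⟨ha1, ha2, ha3⟩ := hball a ha
        have haH : a ∈ HH := hsub ha
        have h7 : 0 < ‖Φ z - conj a‖ := norm_sub_pos hzH haH
        have h8 : 0 < ‖Φ w - conj a‖ := norm_sub_pos hwH haH
        apply ENNReal.ofReal_le_ofReal
        calc ((4 : ℝ) ^ 16)⁻¹ * (ρ ^ 4)⁻¹ = (ρ ^ 6 * ((4 * ρ) ^ 8)⁻¹) * (ρ ^ 6 * ((4 * ρ) ^ 8)⁻¹) := by
              field_simp
          _ ≤ _ := by gcongr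
    _ ≤ ∫⁻ a in HH, G a := lintegral_mono_set hsub

end

end Vale.Agent.P142.H521
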