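import Mathlib

/-!
P142, Bergman projection: integrals over the upper half-plane.
-/

open Complex MeasureTheory Metric Set Filter Topology
open scoped Real ComplexConjugate ENNReal

namespace Vale.Agent.P142.H521

noncomputable section

/-- the upper half-plane as a set -/
def HH : Set ℂ := {z : ℂ | 0 < z.im}

lemma isOpen_HH : IsOpen HH := isOpen_lt continuous_const continuous_im

lemma measurableSet_HH : MeasurableSet HH := isOpen_HH.measurableSet

lemma im_le_norm_sub {z a : ℂ} (hz : z ∈ HH) (ha : a ∈ HH) :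
    z.im ≤ ‖z - conj a‖ ∧ a.im ≤ ‖z - conj a‖ := by
  have h1 : (z - conj a).im ≤ ‖z - conj a‖ := Complex.im_le_norm _
  have h2 : (z - conj a).im = z.im + a.im := by simp
  have hz' : 0 < z.im := hz
  have ha' : 0 < a.im := ha
  constructor <;> linarith

lemma norm_sub_pos {z a : ℂ} (hz : z ∈ HH) (ha : a ∈ HH) : 0 < ‖z - conj a‖ :=
  lt_of_lt_of_le (show 0 < z.im from hz) (im_le_norm_sub hz ha).1

lemma norm_sub_symm (z a : ℂ) : ‖z - conj a‖ = ‖a - conj z‖ := by
  have h : z - conj a = - conj (a - conj z) := by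
    simp
  rw [h, norm_neg, Complex.norm_conj]

lemma lint_cauchy (p q : ℝ) (hq : 0 < q) :
    ∫⁻ x : ℝ, ENNReal.ofReal (((x - p) ^ 2 + q ^ 2)⁻¹) = ENNReal.ofReal (π / q) := by
  have h0 : ∀ x : ℝ, ((x - p) ^ 2 + q ^ 2)⁻¹ = (q ^ 2)⁻¹ * (1 + (q⁻¹ * (x - p)) ^ 2)⁻¹ := by
    intro x
    rw [← mul_inv]
    congr 1
    field_simp
    ring
  have hi : Integrable fun x : ℝ => ((x - p) ^ 2 + q ^ 2)⁻¹ := by
    simp_rw [h0]
    apply Integrable.const_mul
    have h1 : Integrable fun x : ℝ => (1 + (q⁻¹ * x) ^ 2)⁻¹ :=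
      integrable_inv_one_add_sq.comp_mul_left' (inv_ne_zero hq.ne')
    exact h1.comp_sub_right p
  rw [← ofReal_integral_eq_lintegral_ofReal hi (Eventually.of_forall fun x => by positivity)]
  congr 1
  simp_rw [h0]
  rw [integral_const_mul]
  have h2 : ∫ x : ℝ, (1 + (q⁻¹ * (x - p)) ^ 2)⁻¹ = ∫ x : ℝ, (1 + (q⁻¹ * x) ^ 2)⁻¹ :=
    integral_sub_right_eq_self (fun x : ℝ => (1 + (q⁻¹ * x) ^ 2)⁻¹) p
  rw [h2, Measure.integral_comp_mul_left (fun x : ℝ => (1 + x ^ 2)⁻¹) q⁻¹,
    integral_univ_inv_one_add_sq, inv_inv, abs_of_pos hq, smul_eq_mul]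
  field_simp

lemma lint_pow {s q : ℝ} (hs : -1 < s) (hs2 : s < 6) (hq : 0 < q) :
    ∫⁻ y in Ioi (0 : ℝ), ENNReal.ofReal (y ^ s * ((y + q) ^ 7)⁻¹) ≤
      ENNReal.ofReal ((1 / (s + 1) + 1 / (6 - s)) * q ^ (s - 6)) := by
  have hs1 : 0 < s + 1 := by linarith
  have hs3 : 0 < 6 - s := by linarith
  rw [← Ioc_union_Ioi_eq_Ioi hq.le, lintegral_union measurableSet_Ioi
    (Ioc_disjoint_Ioi le_rfl)]
  have h1 : ∫⁻ y in Ioc (0 : ℝ) q, ENNReal.ofReal (y ^ s * ((y + q) ^ 7)⁻¹) ≤
      ENNReal.ofReal (1 / (s + 1) * q ^ (s - 6)) := by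
    have hi : IntegrableOn (fun y : ℝ => y ^ s) (Ioc 0 q) := by
      have := intervalIntegral.intervalIntegrable_rpow' (a := 0) (b := q) hs
      exact (intervalIntegrable_iff_integrableOn_Ioc_of_le hq.le).mp this
    calc ∫⁻ y in Ioc (0 : ℝ) q, ENNReal.ofReal (y ^ s * ((y + q) ^ 7)⁻¹)
        ≤ ∫⁻ y in Ioc (0 : ℝ) q, ENNReal.ofReal ((q ^ 7)⁻¹) * ENNReal.ofReal (y ^ s) := by
          apply setLIntegral_mono' measurableSet_Ioc
          intro y hy
          have hy0 : 0 < y := hy.1
          rw [← ENNReal.ofReal_mul (by positivity)]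
          apply ENNReal.ofReal_le_ofReal
          rw [mul_comm]
          have : 0 ≤ y ^ s := Real.rpow_nonneg hy0.le _
          gcongr
          linarith
      _ = ENNReal.ofReal ((q ^ 7)⁻¹) * ENNReal.ofReal (∫ y in Ioc (0 : ℝ) q, y ^ s) := by
          rw [lintegral_const_mul' _ _ ENNReal.ofReal_ne_top,
            ofReal_integral_eq_lintegral_ofReal hi]
          filter_upwards [ae_restrict_mem measurableSet_Ioc] with y hy
          exact Real.rpow_nonneg hy.1.le _
      _ ≤ _ := by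
          rw [← ENNReal.ofReal_mul (by positivity)]
          apply ENNReal.ofReal_le_ofReal
          rw [← intervalIntegral.integral_of_le hq.le, integral_rpow (Or.inl hs),
            Real.zero_rpow hs1.ne', sub_zero]
          have h3 : q ^ (s - 6) = (q ^ 7)⁻¹ * q ^ (s + 1) := by
            have : s - 6 = s + 1 - (7 : ℕ) := by push_cast; ring
            rw [this, Real.rpow_sub_natCast hq.ne']
            field_simp
          rw [h3]
          apply le_of_eq
          ring
  have h2 : ∫⁻ y in Ioi q, ENNReal.ofReal (y ^ s * ((y + q) ^ 7)⁻¹) ≤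
      ENNReal.ofReal (1 / (6 - s) * q ^ (s - 6)) := by
    have hi : IntegrableOn (fun y : ℝ => y ^ (s - 7)) (Ioi q) :=
      integrableOn_Ioi_rpow_of_lt (by linarith) hq
    calc ∫⁻ y in Ioi q, ENNReal.ofReal (y ^ s * ((y + q) ^ 7)⁻¹)
        ≤ ∫⁻ y in Ioi q, ENNReal.ofReal (y ^ (s - 7)) := by
          apply setLIntegral_mono' measurableSet_Ioi
          intro y hy
          have hy0 : 0 < y := hq.trans hy
          apply ENNReal.ofReal_le_ofReal
          have h3 : y ^ (s - 7) = y ^ s * (y ^ 7)⁻¹ := by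
            have : s - 7 = s - (7 : ℕ) := by push_cast; ring
            rw [this, Real.rpow_sub_natCast hy0.ne']
            rfl
          rw [h3]
          have : 0 ≤ y ^ s := Real.rpow_nonneg hy0.le _
          gcongr
          linarith
      _ = ENNReal.ofReal (∫ y in Ioi q, y ^ (s - 7)) := by
          rw [ofReal_integral_eq_lintegral_ofReal hi]
          filter_upwards [ae_restrict_mem measurableSet_Ioi] with y hy
          exact Real.rpow_nonneg (hq.trans hy).le _
      _ ≤ _ := by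
          apply ENNReal.ofReal_le_ofReal
          rw [integral_Ioi_rpow_of_lt (by linarith) hq]
          have : s - 7 + 1 = s - 6 := by ring
          rw [this]
          have h4 : s - 6 ≠ 0 := by linarith
          apply le_of_eq
          field_simp
          ring
  have hp : 0 ≤ q ^ (s - 6) := Real.rpow_nonneg hq.le _
  calc _ ≤ ENNReal.ofReal (1 / (s + 1) * q ^ (s - 6)) +
        ENNReal.ofReal (1 / (6 - s) * q ^ (s - 6)) := add_le_add h1 h2
    _ = _ := by
        rw [← ENNReal.ofReal_add (by positivity) (by positivity)]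
        congr 1
        ring

/-- the basic integral over the half-plane -/
theorem lint_half {s : ℝ} (hs : -1 < s) (hs2 : s < 6) {a : ℂ} (ha : a ∈ HH) :
    ∫⁻ z in HH, ENNReal.ofReal (z.im ^ s * (‖z - conj a‖ ^ 8)⁻¹) ≤
      ENNReal.ofReal (π * (1 / (s + 1) + 1 / (6 - s)) * a.im ^ (s - 6)) := by
  have ha' : 0 < a.im := ha
  have hs1 : 0 < s + 1 := by linarith
  have hs3 : 0 < 6 - s := by linarith
  set f : ℂ → ℝ≥0∞ := HH.indicator fun z => ENNReal.ofReal (z.im ^ s * (‖z - conj a‖ ^ 8)⁻¹)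
    with hf
  have hfm : Measurable f := by
    apply Measurable.indicator _ measurableSet_HH
    apply ENNReal.measurable_ofReal.comp
    apply Measurable.mul
    · exact (Complex.measurable_im.pow_const s)
    · exact (((measurable_id.sub_const _).norm.pow_const 8).inv)
  rw [← lintegral_indicator measurableSet_HH]
  have e1 : ∫⁻ z, f z = ∫⁻ x : ℝ × ℝ, f (Complex.measurableEquivRealProd.symm x) := by
    have h := (Complex.volume_preserving_equiv_real_prod.symm).lintegral_comp_emb
      Complex.measurableEquivRealProd.symm.measurableEmbedding f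
    exact h.symm
  have hm2 : AEMeasurable (fun x : ℝ × ℝ => f (Complex.measurableEquivRealProd.symm x))
      ((volume : Measure ℝ).prod (volume : Measure ℝ)) :=
    (hfm.comp Complex.measurableEquivRealProd.symm.measurable).aemeasurable
  rw [e1, Measure.volume_eq_prod, lintegral_prod_symm _ hm2]
  have h1 : ∀ y x : ℝ, f (Complex.measurableEquivRealProd.symm (x, y)) ≤
      (Ioi (0 : ℝ)).indicator (fun y => ENNReal.ofReal (y ^ s * ((y + a.im) ^ 6)⁻¹)) y *
        ENNReal.ofReal (((x - a.re) ^ 2 + (y + a.im) ^ 2)⁻¹) := by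
    intro y x
    by_cases hy : 0 < y
    · have hz : Complex.measurableEquivRealProd.symm (x, y) = (⟨x, y⟩ : ℂ) := rfl
      have hzH : (⟨x, y⟩ : ℂ) ∈ HH := hy
      rw [hz, hf, indicator_of_mem hzH, indicator_of_mem (show y ∈ Ioi (0 : ℝ) from hy),
        ← ENNReal.ofReal_mul (by positivity)]
      apply ENNReal.ofReal_le_ofReal
      have hn : ‖(⟨x, y⟩ : ℂ) - conj a‖ ^ 2 = (x - a.re) ^ 2 + (y + a.im) ^ 2 := by
        rw [← Complex.normSq_eq_norm_sq, Complex.normSq_apply]
        simp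
        ring
      have h8 : ‖(⟨x, y⟩ : ℂ) - conj a‖ ^ 8 = ((x - a.re) ^ 2 + (y + a.im) ^ 2) ^ 4 := by
        rw [← hn]; ring
      rw [h8]
      have hya : 0 < y + a.im := by linarith
      have hys : 0 ≤ y ^ s := Real.rpow_nonneg hy.le _
      rw [mul_assoc, ← mul_inv]
      gcongr
      have h3 : (y + a.im) ^ 2 ≤ (x - a.re) ^ 2 + (y + a.im) ^ 2 := by
        nlinarith [sq_nonneg (x - a.re)]
      calc (y + a.im) ^ 6 * ((x - a.re) ^ 2 + (y + a.im) ^ 2)
          = ((y + a.im) ^ 2) ^ 3 * ((x - a.re) ^ 2 + (y + a.im) ^ 2) := by ring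
        _ ≤ ((x - a.re) ^ 2 + (y + a.im) ^ 2) ^ 3 * ((x - a.re) ^ 2 + (y + a.im) ^ 2) := by
            gcongr
        _ = _ := by ring
    · have hz : Complex.measurableEquivRealProd.symm (x, y) = (⟨x, y⟩ : ℂ) := rfl
      have hzH : (⟨x, y⟩ : ℂ) ∉ HH := hy
      rw [hz, hf, indicator_of_notMem hzH]
      exact zero_le
  calc _ ≤ ∫⁻ y : ℝ, ∫⁻ x : ℝ,
        (Ioi (0 : ℝ)).indicator (fun y => ENNReal.ofReal (y ^ s * ((y + a.im) ^ 6)⁻¹)) y *
        ENNReal.ofReal (((x - a.re) ^ 2 + (y + a.im) ^ 2)⁻¹) :=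
        lintegral_mono fun y => lintegral_mono fun x => h1 y x
    _ ≤ ∫⁻ y : ℝ, (Ioi (0 : ℝ)).indicator
        (fun y => ENNReal.ofReal π * ENNReal.ofReal (y ^ s * ((y + a.im) ^ 7)⁻¹)) y := by
        apply lintegral_mono
        intro y
        by_cases hy : 0 < y
        · have hya : 0 < y + a.im := by linarith
          have hys : 0 ≤ y ^ s := Real.rpow_nonneg hy.le _
          simp only [indicator_of_mem (show y ∈ Ioi (0 : ℝ) from hy)]
          rw [lintegral_const_mul' _ _ ENNReal.ofReal_ne_top, lint_cauchy _ _ hya,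
            ← ENNReal.ofReal_mul (by positivity), ← ENNReal.ofReal_mul (by positivity)]
          apply ENNReal.ofReal_le_ofReal
          apply le_of_eq
          field_simp
        · simp only [indicator_of_notMem (show y ∉ Ioi (0 : ℝ) from hy), zero_mul,
            lintegral_zero, le_refl]
    _ = ENNReal.ofReal π * ∫⁻ y in Ioi (0 : ℝ), ENNReal.ofReal (y ^ s * ((y + a.im) ^ 7)⁻¹) := by
        rw [lintegral_indicator measurableSet_Ioi,
          lintegral_const_mul' _ _ ENNReal.ofReal_ne_top]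
    _ ≤ ENNReal.ofReal π * ENNReal.ofReal ((1 / (s + 1) + 1 / (6 - s)) * a.im ^ (s - 6)) := by
        gcongr
        exact lint_pow hs hs2 ha'
    _ = _ := by
        rw [← ENNReal.ofReal_mul Real.pi_pos.le]
        congr 1
        ring

end

end Vale.Agent.P142.H521
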