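import Mathlib

/-!
P142, Bergman projection: the area mean value property on the unit disc.
-/

open Complex MeasureTheory Metric Set Filter Topology
open scoped Real ComplexConjugate ENNReal

namespace Vale.Agent.P142.H521

noncomputable section

lemma circle_int {H : ℂ → ℂ} (hH : DifferentiableOn ℂ H (ball 0 1)) {ρ : ℝ} (h0 : 0 < ρ)
    (h1 : ρ < 1) :
    ∫ θ in Ioo (-π) π, H (Complex.polarCoord.symm (ρ, θ)) = 2 * π * H 0 := by
  have hd : DiffContOnCl ℂ H (ball 0 |ρ|) := by
    rw [abs_of_pos h0]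
    apply DifferentiableOn.diffContOnCl
    rw [closure_ball 0 h0.ne']
    exact hH.mono (closedBall_subset_ball h1)
  have h2 := hd.circleAverage
  rw [Real.circleAverage_def] at h2
  have hper : Function.Periodic (fun θ => H (circleMap 0 ρ θ)) (2 * π) :=
    (periodic_circleMap 0 ρ).comp H
  have h3 := hper.intervalIntegral_add_eq 0 (-π)
  have e1 : (0 : ℝ) + 2 * π = 2 * π := by ring
  have e2 : -π + 2 * π = π := by ring
  rw [e1, e2] at h3
  rw [h3] at h2
  rw [← integral_Ioc_eq_integral_Ioo, ← intervalIntegral.integral_of_le (by linarith [Real.pi_pos])]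
  have h4 : ∀ θ : ℝ, H (Complex.polarCoord.symm (ρ, θ)) = H (circleMap 0 ρ θ) := by
    intro θ
    congr 1
    rw [Complex.polarCoord_symm_apply, circleMap, zero_add, Complex.exp_mul_I, Complex.ofReal_cos,
      Complex.ofReal_sin]
  simp only [h4]
  rw [← h2]
  have hpi : (π : ℂ) ≠ 0 := Complex.ofReal_ne_zero.mpr Real.pi_pos.ne'
  rw [Complex.real_smul]
  push_cast
  field_simp

lemma polar_mem {r : ℝ} {p : ℝ × ℝ} (hp : 0 < p.1) :
    Complex.polarCoord.symm p ∈ ball (0 : ℂ) r ↔ p.1 < r := by
  rw [mem_ball_zero_iff, Complex.norm_polarCoord_symm, abs_of_pos hp]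

lemma int_ball {H : ℂ → ℂ} (hH : DifferentiableOn ℂ H (ball 0 1)) {r : ℝ} (h0 : 0 < r)
    (h1 : r < 1) : ∫ z in ball (0 : ℂ) r, H z = π * r ^ 2 * H 0 := by
  have hc : Continuous fun p : ℝ × ℝ => Complex.polarCoord.symm p := by
    simp only [Complex.polarCoord_symm_apply]
    fun_prop
  have hI : IntegrableOn (fun p : ℝ × ℝ => p.1 • H (Complex.polarCoord.symm p))
      (Ioo 0 r ×ˢ Ioo (-π) π) := by
    apply IntegrableOn.mono_set (t := Icc 0 r ×ˢ Icc (-π) π)
    · apply ContinuousOn.integrableOn_compact (isCompact_Icc.prod isCompact_Icc)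
      apply ContinuousOn.smul continuousOn_fst
      apply hH.continuousOn.comp hc.continuousOn
      intro p hp
      rw [mem_ball_zero_iff, Complex.norm_polarCoord_symm, abs_of_nonneg hp.1.1]
      exact lt_of_le_of_lt hp.1.2 h1
    · exact prod_mono Ioo_subset_Icc_self Ioo_subset_Icc_self
  calc ∫ z in ball (0 : ℂ) r, H z = ∫ z, (ball (0 : ℂ) r).indicator H z :=
        (integral_indicator measurableSet_ball).symm
    _ = ∫ p in polarCoord.target, p.1 • (ball (0 : ℂ) r).indicator H (Complex.polarCoord.symm p) :=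
        (Complex.integral_comp_polarCoord_symm _).symm
    _ = ∫ p in Ioo 0 r ×ˢ Ioo (-π) π, p.1 • H (Complex.polarCoord.symm p) := by
        have ht : polarCoord.target = Ioi (0 : ℝ) ×ˢ Ioo (-π) π := rfl
        rw [ht, ← integral_indicator (measurableSet_Ioi.prod measurableSet_Ioo),
          ← integral_indicator (measurableSet_Ioo.prod measurableSet_Ioo)]
        congr 1
        funext p
        by_cases hp : p ∈ Ioi (0 : ℝ) ×ˢ Ioo (-π) π
        · rw [indicator_of_mem hp]
          by_cases hr : p.1 < r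
          · have hmem : p ∈ Ioo 0 r ×ˢ Ioo (-π) π := ⟨⟨hp.1, hr⟩, hp.2⟩
            rw [indicator_of_mem ((polar_mem hp.1).mpr hr), indicator_of_mem hmem]
          · rw [indicator_of_notMem (fun h => hr ((polar_mem hp.1).mp h)),
              indicator_of_notMem (fun h => hr h.1.2), smul_zero]
        · rw [indicator_of_notMem hp, indicator_of_notMem (fun h => hp ⟨h.1.1, h.2⟩)]
    _ = ∫ ρ in Ioo 0 r, ∫ θ in Ioo (-π) π, ρ • H (Complex.polarCoord.symm (ρ, θ)) :=
        setIntegral_prod _ hI
    _ = ∫ ρ in Ioo 0 r, (2 * π * H 0) * (ρ : ℂ) := by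
        apply setIntegral_congr_fun measurableSet_Ioo
        intro ρ hρ
        simp only
        rw [integral_smul, circle_int hH hρ.1 (hρ.2.trans h1), Complex.real_smul]
        ring
    _ = (2 * π * H 0) * ∫ ρ in Ioo 0 r, (ρ : ℂ) := integral_const_mul _ _
    _ = _ := by
        rw [← integral_Ioc_eq_integral_Ioo, ← intervalIntegral.integral_of_le h0.le]
        have : ∫ x in (0 : ℝ)..r, (x : ℂ) = ((∫ x in (0 : ℝ)..r, x : ℝ) : ℂ) :=
          intervalIntegral.integral_ofReal
        rw [this, integral_id]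
        push_cast
        ring

/-- **area mean value property** for integrable holomorphic functions on the unit disc -/
theorem mean_value {H : ℂ → ℂ} (hH : DifferentiableOn ℂ H (ball 0 1))
    (hI : IntegrableOn H (ball 0 1)) : ∫ z in ball (0 : ℂ) 1, H z = π * H 0 := by
  set r : ℕ → ℝ := fun n => 1 - 1 / ((n : ℝ) + 2) with hr
  have hr0 : ∀ n, 0 < r n := by
    intro n
    have : (0 : ℝ) ≤ n := Nat.cast_nonneg n
    simp only [hr]
    rw [sub_pos, div_lt_one (by linarith)]
    linarith
  have hr1 : ∀ n, r n < 1 := by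
    intro n
    have : (0 : ℝ) < 1 / ((n : ℝ) + 2) := by positivity
    simp only [hr]
    linarith
  have hmono : Monotone r := by
    intro m n hmn
    simp only [hr]
    have : (m : ℝ) ≤ n := Nat.cast_le.mpr hmn
    gcongr
  have hlim : Tendsto r atTop (𝓝 1) := by
    have h1 : Tendsto (fun n : ℕ => 1 / ((n : ℝ) + 2)) atTop (𝓝 0) := by
      have h2 : Tendsto (fun n : ℕ => (n : ℝ) + 2) atTop atTop :=
        tendsto_atTop_add_const_right _ _ tendsto_natCast_atTop_atTop
      refine (h2.inv_tendsto_atTop).congr fun n => ?_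
      simp
    have h3 := h1.const_sub 1
    rw [sub_zero] at h3
    exact h3
  have hU : (⋃ n, ball (0 : ℂ) (r n)) = ball 0 1 := by
    ext z
    simp only [mem_iUnion, mem_ball_zero_iff]
    constructor
    · rintro ⟨n, hn⟩
      exact hn.trans (hr1 n)
    · intro hz
      exact ((hlim.eventually (lt_mem_nhds hz)).exists)
  have h1 := tendsto_setIntegral_of_monotone (μ := volume) (f := H)
    (s := fun n => ball (0 : ℂ) (r n)) (fun n => measurableSet_ball)
    (fun m n hmn => ball_subset_ball (hmono hmn)) (by rw [hU]; exact hI)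
  rw [hU] at h1
  have h2 : Tendsto (fun n => ∫ z in ball (0 : ℂ) (r n), H z) atTop (𝓝 (π * H 0)) := by
    have e : ∀ n, ∫ z in ball (0 : ℂ) (r n), H z = π * (r n : ℂ) ^ 2 * H 0 := fun n =>
      int_ball hH (hr0 n) (hr1 n)
    simp only [e]
    have h3 : Tendsto (fun n => (r n : ℂ)) atTop (𝓝 ((1 : ℝ) : ℂ)) :=
      (Complex.continuous_ofReal.tendsto 1).comp hlim
    have h4 := ((h3.pow 2).const_mul (π : ℂ)).mul_const (H 0)
    simpa using h4
  exact tendsto_nhds_unique h1 h2

end

end Vale.Agent.P142.H521
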