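import Vale.Agent.P142.H838.Main
import Vale.Agent.P142.H521.Half

/-!
P142, Bergman projection: conformal maps onto the half-plane.
-/

open Complex MeasureTheory Metric Set Filter Topology
open scoped Real ComplexConjugate ENNReal

namespace Vale.Agent.P142.H521

open Vale.Agent.P142 Vale.Agent.P142.H838

noncomputable section

/-- conformal bijection onto the upper half-plane -/
def HConf (W : Set ℂ) (Φ : ℂ → ℂ) : Prop :=
  IsOpen W ∧ DifferentiableOn ℂ Φ W ∧ BijOn Φ W HH

lemma ne_conj {z a : ℂ} (hz : z ∈ HH) (ha : a ∈ HH) : z - conj a ≠ 0 :=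
  norm_pos_iff.mp (norm_sub_pos hz ha)

lemma normSq_sub_conj (z a : ℂ) :
    ‖z - conj a‖ ^ 2 = ‖z - a‖ ^ 2 + 4 * (z.im * a.im) := by
  rw [← Complex.normSq_eq_norm_sq, ← Complex.normSq_eq_norm_sq, Complex.normSq_apply,
    Complex.normSq_apply]
  simp
  ring

lemma mob_bij {a : ℂ} (ha : a ∈ HH) :
    BijOn (fun z => (z - a) / (z - conj a)) HH (ball 0 1) := by
  have ha' : 0 < a.im := ha
  refine ⟨fun z hz => ?_, fun z hz w hw hzw => ?_, fun x hx => ?_⟩
  · have hz' : 0 < z.im := hz
    rw [mem_ball_zero_iff, norm_div, div_lt_one (norm_sub_pos hz ha)]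
    have h1 := normSq_sub_conj z a
    have h2 : 0 < z.im * a.im := mul_pos hz' ha'
    nlinarith [norm_nonneg (z - a), norm_nonneg (z - conj a)]
  · have h1 := ne_conj hz ha
    have h2 := ne_conj hw ha
    simp only at hzw
    rw [div_eq_div_iff h1 h2] at hzw
    have h3 : (z - w) * (a - conj a) = 0 := by linear_combination hzw
    rcases mul_eq_zero.mp h3 with h | h
    · exact sub_eq_zero.mp h
    · exfalso
      have : (a - conj a).im = 0 := by rw [h]; simp
      simp at this
      linarith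
  · have hx1 : ‖x‖ < 1 := by simpa using hx
    have h1x : (1 : ℂ) - x ≠ 0 := by
      intro h
      have : x = 1 := by linear_combination -h
      rw [this] at hx1
      simp at hx1
    refine ⟨(a - conj a * x) / (1 - x), ?_, ?_⟩
    · have h2 : ((a - conj a * x) / (1 - x)).im = a.im * (1 - ‖x‖ ^ 2) / ‖1 - x‖ ^ 2 := by
        rw [← Complex.normSq_eq_norm_sq, ← Complex.normSq_eq_norm_sq, Complex.div_im,
          Complex.normSq_apply x]
        simp only [Complex.sub_re, Complex.sub_im, Complex.mul_re, Complex.mul_im,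
          Complex.conj_re, Complex.conj_im, Complex.one_re, Complex.one_im]
        field_simp
        ring
      show 0 < ((a - conj a * x) / (1 - x)).im
      rw [h2]
      have h3 : 0 < 1 - ‖x‖ ^ 2 := by nlinarith [norm_nonneg x]
      have h4 : 0 < ‖1 - x‖ := norm_pos_iff.mpr h1x
      positivity
    · have h2 : a - conj a ≠ 0 := by
        intro h
        have : (a - conj a).im = 0 := by rw [h]; simp
        simp at this
        linarith
      have h3 : (a - conj a * x) / (1 - x) - a = x * (a - conj a) / (1 - x) := by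
        field_simp
        ring
      have h4 : (a - conj a * x) / (1 - x) - conj a = (a - conj a) / (1 - x) := by
        field_simp
        ring
      simp only
      rw [h3, h4]
      field_simp

lemma mob_hasDerivAt {a z : ℂ} (hz : z ∈ HH) (ha : a ∈ HH) :
    HasDerivAt (fun z => (z - a) / (z - conj a)) ((a - conj a) / (z - conj a) ^ 2) z := by
  have h1 := ((hasDerivAt_id z).sub_const a).div ((hasDerivAt_id z).sub_const (conj a))
    (ne_conj hz ha)
  refine h1.congr_deriv ?_
  simp only [id]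
  congr 1
  ring

lemma norm_sub_conj_self {a : ℂ} (ha : a ∈ HH) : ‖a - conj a‖ = 2 * a.im := by
  have ha' : 0 < a.im := ha
  have h : a - conj a = ((2 * a.im : ℝ) : ℂ) * I := by
    rw [Complex.sub_conj]
  rw [h, norm_mul, Complex.norm_I, mul_one, Complex.norm_real, Real.norm_eq_abs,
    abs_of_pos (by positivity)]

/-- composition with the Möbius map which sends `Φ c` to `0` -/
lemma comp_mob {W : Set ℂ} {Φ : ℂ → ℂ} (h : HConf W Φ) {c : ℂ} (hc : c ∈ W) :
    DifferentiableOn ℂ (fun w => (Φ w - Φ c) / (Φ w - conj (Φ c))) W ∧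
    BijOn (fun w => (Φ w - Φ c) / (Φ w - conj (Φ c))) W (ball 0 1) ∧
    ∀ w ∈ W, ‖deriv (fun w => (Φ w - Φ c) / (Φ w - conj (Φ c))) w‖ =
      ‖deriv Φ w‖ * (2 * (Φ c).im) / ‖Φ w - conj (Φ c)‖ ^ 2 := by
  obtain ⟨hW, hd, hb⟩ := h
  have hcH : Φ c ∈ HH := hb.mapsTo hc
  have hder : ∀ w ∈ W, HasDerivAt (fun w => (Φ w - Φ c) / (Φ w - conj (Φ c)))
      ((Φ c - conj (Φ c)) / (Φ w - conj (Φ c)) ^ 2 * deriv Φ w) w := by
    intro w hw
    have h1 : HasDerivAt Φ (deriv Φ w) w := (hd.differentiableAt (hW.mem_nhds hw)).hasDerivAt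
    exact (mob_hasDerivAt (hb.mapsTo hw) hcH).comp w h1
  refine ⟨fun w hw => (hder w hw).differentiableAt.differentiableWithinAt, ?_, fun w hw => ?_⟩
  · exact (mob_bij hcH).comp hb
  · rw [(hder w hw).deriv, norm_mul, norm_div, norm_pow, norm_sub_conj_self hcH]
    ring

/-- change of variables -/
lemma lint_cv {W : Set ℂ} {Φ : ℂ → ℂ} (h : HConf W Φ) (G : ℂ → ℝ≥0∞) :
    ∫⁻ w in W, ENNReal.ofReal (‖deriv Φ w‖ ^ 2) * G (Φ w) = ∫⁻ z in HH, G z := by
  obtain ⟨hW, hd, hb⟩ := h
  have h1 := lintegral_image_eq_lintegral_abs_det_fderiv_mul volume (s := W)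
    (f := Φ) (f' := fun z => (ContinuousLinearMap.toSpanSingleton ℂ (deriv Φ z)).restrictScalars ℝ)
    hW.measurableSet (fun z hz =>
      (((hd.differentiableAt (hW.mem_nhds hz)).hasDerivAt.hasFDerivAt).restrictScalars
        ℝ).hasFDerivWithinAt) hb.injOn G
  rw [hb.image_eq] at h1
  rw [h1]
  simp only [abs_det_holo]

/-- the Cayley transform of a conformal map onto the disc -/
lemma hconf_of_disc {W : Set ℂ} {φ : ℂ → ℂ} (hW : IsOpen W) (hφ : DifferentiableOn ℂ φ W)
    (hb : BijOn φ W (ball 0 1)) :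
    HConf W (fun w => I * (1 + φ w) / (1 - φ w)) ∧
    (∀ w ∈ W, ‖deriv (fun w => I * (1 + φ w) / (1 - φ w)) w‖ =
      2 * ‖deriv φ w‖ / ‖1 - φ w‖ ^ 2) ∧
    (∀ z ∈ W, ∀ w ∈ W, ‖I * (1 + φ z) / (1 - φ z) - conj (I * (1 + φ w) / (1 - φ w))‖ =
      2 * ‖1 - φ z * conj (φ w)‖ / (‖1 - φ z‖ * ‖1 - φ w‖)) := by
  have hne : ∀ w ∈ W, 1 - φ w ≠ 0 := by
    intro w hw h
    have h1 : φ w = 1 := by linear_combination -h
    have h2 := hb.mapsTo hw
    rw [h1] at h2
    simp at h2
  have hder : ∀ w ∈ W, HasDerivAt (fun w => I * (1 + φ w) / (1 - φ w))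
      (2 * I * deriv φ w / (1 - φ w) ^ 2) w := by
    intro w hw
    have h1 : HasDerivAt φ (deriv φ w) w := (hφ.differentiableAt (hW.mem_nhds hw)).hasDerivAt
    have h2 := ((h1.const_add 1).const_mul I).div (h1.const_sub 1) (hne w hw)
    refine h2.congr_deriv ?_
    congr 1
    ring
  refine ⟨⟨hW, fun w hw => (hder w hw).differentiableAt.differentiableWithinAt, ?_⟩,
    fun w hw => ?_, fun z hz w hw => ?_⟩
  · refine ⟨fun w hw => ?_, fun z hz w hw hzw => ?_, fun x hx => ?_⟩
    · have hx1 : ‖φ w‖ < 1 := by simpa using hb.mapsTo hw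
      have h2 : (I * (1 + φ w) / (1 - φ w)).im = (1 - ‖φ w‖ ^ 2) / ‖1 - φ w‖ ^ 2 := by
        have h0 := hne w hw
        rw [← Complex.normSq_eq_norm_sq, ← Complex.normSq_eq_norm_sq, Complex.div_im,
          Complex.normSq_apply (φ w)]
        simp only [Complex.sub_re, Complex.sub_im, Complex.mul_re, Complex.mul_im, Complex.add_re,
          Complex.add_im, Complex.I_re, Complex.I_im, Complex.one_re, Complex.one_im]
        field_simp
        ring
      show 0 < (I * (1 + φ w) / (1 - φ w)).im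
      rw [h2]
      have h3 : 0 < 1 - ‖φ w‖ ^ 2 := by nlinarith [norm_nonneg (φ w)]
      have h4 : 0 < ‖1 - φ w‖ := norm_pos_iff.mpr (hne w hw)
      positivity
    · apply hb.injOn hz hw
      simp only at hzw
      rw [div_eq_div_iff (hne z hz) (hne w hw)] at hzw
      have h3 : (2 * I) * (φ z - φ w) = 0 := by linear_combination hzw
      rcases mul_eq_zero.mp h3 with h | h
      · exfalso
        simp at h
      · exact sub_eq_zero.mp h
    · have hI : (I : ℂ) ∈ HH := by simp [HH]
      have h1 : (x - I) / (x - conj I) ∈ ball (0 : ℂ) 1 := (mob_bij hI).mapsTo hx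
      obtain ⟨w, hw, hw2⟩ := hb.surjOn h1
      refine ⟨w, hw, ?_⟩
      have h2 := ne_conj hx hI
      have h3 := hne w hw
      simp only
      rw [hw2] at h3 ⊢
      simp only [Complex.conj_I, sub_neg_eq_add] at h2 h3 ⊢
      have h4 : x + I - (x - I) ≠ 0 := by
        intro h
        apply h3
        field_simp
        linear_combination h
      rw [div_eq_iff h3]
      field_simp
      ring_nf
  · rw [(hder w hw).deriv, norm_div, norm_mul, norm_mul, Complex.norm_I, norm_pow]
    norm_num
  · have h1 := hne z hz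
    have h2 := hne w hw
    have h2' : 1 - conj (φ w) ≠ 0 := by
      intro h
      apply h2
      have := congrArg conj h
      simpa using this
    have h3 : I * (1 + φ z) / (1 - φ z) - conj (I * (1 + φ w) / (1 - φ w)) =
        2 * I * (1 - φ z * conj (φ w)) / ((1 - φ z) * (1 - conj (φ w))) := by
      simp only [map_div₀, map_mul, map_add, map_sub, map_one, Complex.conj_I]
      field_simp
      ring
    have h4 : ‖1 - conj (φ w)‖ = ‖1 - φ w‖ := by
      rw [← Complex.norm_conj (1 - φ w)]
      simp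
    rw [h3, norm_div, norm_mul, norm_mul, norm_mul, Complex.norm_I, h4]
    norm_num

end

end Vale.Agent.P142.H521
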