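import Vale.Agent.P142.H521.Bdd
import Vale.Agent.P142.H521.Schur

/-!
P142, Bergman projection: boundedness of the positive Bergman operator on `L^p(W)`,
`4/3 < p < 4`, in the half-plane coordinate.
-/

open Complex MeasureTheory Metric Set Filter Topology
open scoped Real ComplexConjugate ENNReal

namespace Vale.Agent.P142.H521

open Vale.Agent.P142 Vale.Agent.P142.H838

noncomputable section

/-- the weights of Schur's test -/
def lw (Φ : ℂ → ℂ) (a b : ℝ) (w : ℂ) : ℝ≥0∞ := ENNReal.ofReal (‖deriv Φ w‖ ^ a * (Φ w).im ^ (-b))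

/-- the two halves of the kernel -/
def kap (Φ : ℂ → ℂ) (c w : ℂ) : ℝ≥0∞ := ENNReal.ofReal (‖deriv Φ c‖ * ‖deriv Φ w‖ * kk Φ c w)

lemma measurable_lw {Φ : ℂ → ℂ} (hm : Measurable Φ) (a b : ℝ) : Measurable (lw Φ a b) := by
  unfold lw
  exact ENNReal.measurable_ofReal.comp
    (((measurable_deriv Φ).norm.pow_const a).mul ((Complex.measurable_im.comp hm).pow_const (-b)))

lemma measurable_kap {Φ : ℂ → ℂ} (hm : Measurable Φ) :
    Measurable (Function.uncurry fun c w => kap Φ c w) := by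
  unfold kap Function.uncurry
  exact ENNReal.measurable_ofReal.comp
    ((((measurable_deriv Φ).norm.comp measurable_fst).mul
      ((measurable_deriv Φ).norm.comp measurable_snd)).mul (measurable_kk hm))

lemma measurable_kap' {Φ : ℂ → ℂ} (hm : Measurable Φ) :
    Measurable (Function.uncurry fun z c => kap Φ c z) := by
  have h1 := (measurable_kap hm).comp (measurable_swap (α := ℂ) (β := ℂ))
  have h2 : (Function.uncurry fun z c => kap Φ c z) =
      (Function.uncurry fun c w => kap Φ c w) ∘ Prod.swap := by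
    funext x
    obtain ⟨a, b⟩ := x
    rfl
  rw [h2]
  exact h1

lemma lw_ne_zero {W : Set ℂ} {Φ : ℂ → ℂ} (h : HConf W Φ) (a b : ℝ) {w : ℂ} (hw : w ∈ W) :
    lw Φ a b w ≠ 0 := by
  have h1 := lam_pos h hw
  have h2 : 0 < (Φ w).im := h.2.2.mapsTo hw
  unfold lw
  rw [Ne, ENNReal.ofReal_eq_zero, not_le]
  positivity

lemma lw_rpow {W : Set ℂ} {Φ : ℂ → ℂ} (h : HConf W Φ) (a b : ℝ) {r : ℝ} (hr : 0 ≤ r) {w : ℂ}
    (hw : w ∈ W) : lw Φ a b w ^ r = lw Φ (a * r) (b * r) w := by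
  have h1 := lam_pos h hw
  have h2 : 0 < (Φ w).im := h.2.2.mapsTo hw
  unfold lw
  rw [ENNReal.ofReal_rpow_of_nonneg (by positivity) hr, Real.mul_rpow (by positivity) (by positivity),
    ← Real.rpow_mul h1.le, ← Real.rpow_mul h2.le, neg_mul]

/-- the first type of integral: over `w`, where `kk Φ c w` is localised at `c` -/
lemma int_kap_w {p : ℝ} {b A : ℝ} (hA : 0 ≤ A) {W : Set ℂ} {Φ : ℂ → ℂ} (h : HConf W Φ)
    (h1 : ∀ c ∈ W, ∫⁻ w in W, ENNReal.ofReal (kk Φ c w * (‖deriv Φ w‖ ^ p * (Φ w).im ^ (-b))) ≤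
      ENNReal.ofReal (A * (‖deriv Φ c‖ ^ (p - 2) * (Φ c).im ^ (-b)))) {c : ℂ} (hc : c ∈ W) :
    ∫⁻ w in W, kap Φ c w * lw Φ (p - 1) b w ≤ ENNReal.ofReal A * lw Φ (p - 1) b c := by
  have hcl := lam_pos h hc
  have hci : 0 < (Φ c).im := h.2.2.mapsTo hc
  calc ∫⁻ w in W, kap Φ c w * lw Φ (p - 1) b w
      = ∫⁻ w in W, ENNReal.ofReal ‖deriv Φ c‖ *
          ENNReal.ofReal (kk Φ c w * (‖deriv Φ w‖ ^ p * (Φ w).im ^ (-b))) := by
        apply setLIntegral_congr_fun h.1.measurableSet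
        intro w hw
        have h3 := lam_pos h hw
        have h4 : 0 < (Φ w).im := h.2.2.mapsTo hw
        have h5 := kk_pos h hc hw
        simp only [kap, lw]
        rw [← ENNReal.ofReal_mul (by positivity), ← ENNReal.ofReal_mul (by positivity)]
        congr 1
        have h6 : ‖deriv Φ w‖ ^ p = ‖deriv Φ w‖ * ‖deriv Φ w‖ ^ (p - 1) := by
          rw [Real.rpow_sub_one h3.ne']
          field_simp
        rw [h6]
        ring
    _ = ENNReal.ofReal ‖deriv Φ c‖ *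
          ∫⁻ w in W, ENNReal.ofReal (kk Φ c w * (‖deriv Φ w‖ ^ p * (Φ w).im ^ (-b))) :=
        lintegral_const_mul' _ _ ENNReal.ofReal_ne_top
    _ ≤ ENNReal.ofReal ‖deriv Φ c‖ *
          ENNReal.ofReal (A * (‖deriv Φ c‖ ^ (p - 2) * (Φ c).im ^ (-b))) :=
        mul_le_mul_right (h1 c hc) _
    _ = _ := by
        unfold lw
        rw [← ENNReal.ofReal_mul (by positivity), ← ENNReal.ofReal_mul (by positivity)]
        congr 1
        have h6 : ‖deriv Φ c‖ ^ (p - 1) = ‖deriv Φ c‖ * ‖deriv Φ c‖ ^ (p - 2) := by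
          have : p - 1 = 1 + (p - 2) := by ring
          rw [this, Real.rpow_add hcl, Real.rpow_one]
        rw [h6]
        ring

/-- the second type of integral: over `c` -/
lemma int_kap_c {b : ℝ} (hb0 : 0 < b) (hb1 : b < 7) {W : Set ℂ} {Φ : ℂ → ℂ} (h : HConf W Φ)
    {w : ℂ} (hw : w ∈ W) :
    ∫⁻ c in W, lw Φ 1 b c * kap Φ c w ≤
      ENNReal.ofReal (π * (1 / (7 - b) + 1 / b)) * lw Φ 1 b w := by
  have hwl := lam_pos h hw
  have hwi : 0 < (Φ w).im := h.2.2.mapsTo hw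
  have h7 : 0 < 7 - b := by linarith
  calc ∫⁻ c in W, lw Φ 1 b c * kap Φ c w
      = ∫⁻ c in W, ENNReal.ofReal ‖deriv Φ w‖ *
          ENNReal.ofReal (‖deriv Φ c‖ ^ 2 *
      ((Φ c).im ^ (6 - b) * (‖Φ c - conj (Φ w)‖ ^ 8)⁻¹)) := by
        apply setLIntegral_congr_fun h.1.measurableSet
        intro c hc
        have h3 := lam_pos h hc
        have h4 : 0 < (Φ c).im := h.2.2.mapsTo hc
        have h5 := kk_pos h hc hw
        simp only [kap, lw]
        rw [← ENNReal.ofReal_mul (by positivity), ← ENNReal.ofReal_mul (by positivity)]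
        congr 1
        have h6 : (Φ c).im ^ (6 - b) = (Φ c).im ^ 6 * (Φ c).im ^ (-b) := by
          have : 6 - b = (6 : ℕ) + -b := by push_cast; ring
          rw [this, Real.rpow_add h4, Real.rpow_natCast]
        rw [h6, Real.rpow_one, kk, norm_sub_symm (Φ w) (Φ c)]
        ring
    _ = ENNReal.ofReal ‖deriv Φ w‖ * ∫⁻ c in W, ENNReal.ofReal (‖deriv Φ c‖ ^ 2 *
      ((Φ c).im ^ (6 - b) * (‖Φ c - conj (Φ w)‖ ^ 8)⁻¹)) :=
        lintegral_const_mul' _ _ ENNReal.ofReal_ne_top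
    _ ≤ ENNReal.ofReal ‖deriv Φ w‖ *
          ENNReal.ofReal (π * (1 / (6 - b + 1) + 1 / (6 - (6 - b))) * (Φ w).im ^ (6 - b - 6)) :=
        mul_le_mul_right (est2 (by linarith) (by linarith) h hw) _
    _ = _ := by
        unfold lw
        rw [← ENNReal.ofReal_mul (by positivity), ← ENNReal.ofReal_mul (by positivity)]
        congr 1
        have e1 : 6 - b + 1 = 7 - b := by ring
        have e2 : 6 - (6 - b) = b := by ring
        have e3 : 6 - b - 6 = -b := by ring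
        rw [e1, e2, e3, Real.rpow_one]
        ring

/-- first Schur test -/
lemma schur1 {p : ℝ} (hp : 1 < p) {b A : ℝ} (hA : 0 ≤ A) (hb0 : 0 < b) (hb1 : b < 7)
    {W : Set ℂ} {Φ : ℂ → ℂ} (h : HConf W Φ) (hm : Measurable Φ)
    (h1 : ∀ c ∈ W, ∫⁻ w in W, ENNReal.ofReal (kk Φ c w * (‖deriv Φ w‖ ^ (p / (p - 1)) *
      (Φ w).im ^ (-(b * (1 / (p - 1)))))) ≤
      ENNReal.ofReal (A * (‖deriv Φ c‖ ^ (p / (p - 1) - 2) * (Φ c).im ^ (-(b * (1 / (p - 1)))))))
    {u : ℂ → ℝ≥0∞} (hu : Measurable u) :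
    ∫⁻ c in W, (∫⁻ w in W, kap Φ c w * u w) ^ p ≤
      ENNReal.ofReal A ^ (p - 1) * ENNReal.ofReal (π * (1 / (7 - b) + 1 / b)) *
        ∫⁻ w in W, u w ^ p := by
  have hp1 : 0 < p - 1 := by linarith
  refine schur (volume.restrict W) hp (measurable_kap hm) (measurable_lw hm 1 b)
    (measurable_lw hm 1 b) ?_ ?_ ?_ ?_ hu
  · filter_upwards [ae_restrict_mem h.1.measurableSet] with w hw
    exact lw_ne_zero h 1 b hw
  · exact Eventually.of_forall fun w => ENNReal.ofReal_ne_top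
  · filter_upwards [ae_restrict_mem h.1.measurableSet] with c hc
    have h2 : ∫⁻ w in W, kap Φ c w * lw Φ 1 b w ^ (1 / (p - 1)) =
        ∫⁻ w in W, kap Φ c w * lw Φ (p / (p - 1) - 1) (b * (1 / (p - 1))) w := by
      apply setLIntegral_congr_fun h.1.measurableSet
      intro w hw
      simp only
      rw [lw_rpow h 1 b (by positivity) hw]
      congr 2
      field_simp
      ring
    rw [h2]
    calc (∫⁻ w in W, kap Φ c w * lw Φ (p / (p - 1) - 1) (b * (1 / (p - 1))) w) ^ (p - 1)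
        ≤ (ENNReal.ofReal A * lw Φ (p / (p - 1) - 1) (b * (1 / (p - 1))) c) ^ (p - 1) :=
          ENNReal.rpow_le_rpow (int_kap_w hA h h1 hc) hp1.le
      _ = _ := by
          rw [ENNReal.mul_rpow_of_nonneg _ _ hp1.le, lw_rpow h _ _ hp1.le hc]
          congr 2
          · field_simp
            ring
          · field_simp
  · filter_upwards [ae_restrict_mem h.1.measurableSet] with w hw
    exact int_kap_c hb0 hb1 h hw

/-- second Schur test, first condition -/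
lemma schur2a {p : ℝ} (hp : 1 < p) {b : ℝ} (hb0 : 0 < b)
    (hb1 : b * (1 / (p - 1)) < 7) {W : Set ℂ} {Φ : ℂ → ℂ} (h : HConf W Φ) {z : ℂ} (hz : z ∈ W) :
    (∫⁻ c in W, kap Φ c z * lw Φ (p - 1) b c ^ (1 / (p - 1))) ^ (p - 1) ≤
      ENNReal.ofReal (π * (1 / (7 - b * (1 / (p - 1))) + 1 / (b * (1 / (p - 1))))) ^ (p - 1) *
        lw Φ (p - 1) b z := by
  have hp1 : 0 < p - 1 := by linarith
  have h2 : ∫⁻ c in W, kap Φ c z * lw Φ (p - 1) b c ^ (1 / (p - 1)) =
      ∫⁻ c in W, lw Φ 1 (b * (1 / (p - 1))) c * kap Φ c z := by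
    apply setLIntegral_congr_fun h.1.measurableSet
    intro w hw
    simp only
    rw [lw_rpow h (p - 1) b (by positivity) hw, mul_comm, mul_one_div_cancel hp1.ne']
  rw [h2]
  calc (∫⁻ c in W, lw Φ 1 (b * (1 / (p - 1))) c * kap Φ c z) ^ (p - 1)
      ≤ (ENNReal.ofReal (π * (1 / (7 - b * (1 / (p - 1))) + 1 / (b * (1 / (p - 1))))) *
          lw Φ 1 (b * (1 / (p - 1))) z) ^ (p - 1) :=
        ENNReal.rpow_le_rpow (int_kap_c (by positivity) hb1 h hz) hp1.le
    _ = _ := by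
        rw [ENNReal.mul_rpow_of_nonneg _ _ hp1.le, lw_rpow h _ _ hp1.le hz, one_mul, mul_assoc b,
          one_div_mul_cancel hp1.ne', mul_one]

/-- second Schur test -/
lemma schur2 {p : ℝ} (hp : 1 < p) {b A : ℝ} (hA : 0 ≤ A) (hb0 : 0 < b)
    (hb1 : b * (1 / (p - 1)) < 7)
    {W : Set ℂ} {Φ : ℂ → ℂ} (h : HConf W Φ) (hm : Measurable Φ)
    (h1 : ∀ c ∈ W, ∫⁻ w in W, ENNReal.ofReal (kk Φ c w * (‖deriv Φ w‖ ^ p *
      (Φ w).im ^ (-b))) ≤
      ENNReal.ofReal (A * (‖deriv Φ c‖ ^ (p - 2) * (Φ c).im ^ (-b))))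
    {u : ℂ → ℝ≥0∞} (hu : Measurable u) :
    ∫⁻ z in W, (∫⁻ c in W, kap Φ c z * u c) ^ p ≤
      ENNReal.ofReal (π * (1 / (7 - b * (1 / (p - 1))) + 1 / (b * (1 / (p - 1))))) ^ (p - 1) *
        ENNReal.ofReal A * ∫⁻ w in W, u w ^ p := by
  have hκ : Measurable (Function.uncurry fun z c => kap Φ c z) := measurable_kap' hm
  have h0 : ∀ᵐ y ∂(volume.restrict W), lw Φ (p - 1) b y ≠ 0 := by
    filter_upwards [ae_restrict_mem h.1.measurableSet] with w hw
    exact lw_ne_zero h (p - 1) b hw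
  have h0' : ∀ᵐ y ∂(volume.restrict W), lw Φ (p - 1) b y ≠ ⊤ :=
    Eventually.of_forall fun w => ENNReal.ofReal_ne_top
  have ha : ∀ᵐ z ∂(volume.restrict W),
      (∫⁻ c in W, kap Φ c z * lw Φ (p - 1) b c ^ (1 / (p - 1))) ^ (p - 1) ≤
      ENNReal.ofReal (π * (1 / (7 - b * (1 / (p - 1))) + 1 / (b * (1 / (p - 1))))) ^ (p - 1) *
        lw Φ (p - 1) b z := by
    filter_upwards [ae_restrict_mem h.1.measurableSet] with z hz
    exact schur2a hp hb0 hb1 h hz
  have hb : ∀ᵐ c ∂(volume.restrict W), ∫⁻ z in W, lw Φ (p - 1) b z * kap Φ c z ≤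
      ENNReal.ofReal A * lw Φ (p - 1) b c := by
    filter_upwards [ae_restrict_mem h.1.measurableSet] with c hc
    refine le_trans (le_of_eq ?_) (int_kap_w hA h h1 hc)
    apply lintegral_congr
    intro z
    rw [mul_comm]
  exact schur (volume.restrict W) hp (κ := fun z c => kap Φ c z) hκ (measurable_lw hm (p - 1) b)
    (measurable_lw hm (p - 1) b) h0 h0' ha hb hu

/-- domination of the Bergman kernel by the composition of the two localised kernels -/
lemma kernel_dom {W : Set ℂ} {Φ : ℂ → ℂ} (h : HConf W Φ) {z w : ℂ} (hz : z ∈ W) (hw : w ∈ W) :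
    ENNReal.ofReal (‖deriv Φ z‖ * ‖deriv Φ w‖ * (‖Φ z - conj (Φ w)‖ ^ 2)⁻¹) ≤
      ENNReal.ofReal (4 ^ 16 / π) * ∫⁻ c in W, kap Φ c z * kap Φ c w := by
  have h1 := lam_pos h hz
  have h2 := lam_pos h hw
  have h3 : ∫⁻ c in W, kap Φ c z * kap Φ c w = ENNReal.ofReal (‖deriv Φ z‖ * ‖deriv Φ w‖) *
      ∫⁻ c in W, ENNReal.ofReal (‖deriv Φ c‖ ^ 2) * ENNReal.ofReal (kk Φ c z * kk Φ c w) := by
    rw [← lintegral_const_mul' _ _ ENNReal.ofReal_ne_top]
    apply setLIntegral_congr_fun h.1.measurableSet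
    intro c hc
    have h4 := lam_pos h hc
    have h5 := kk_pos h hc hz
    have h6 := kk_pos h hc hw
    simp only [kap]
    rw [← ENNReal.ofReal_mul (by positivity), ← ENNReal.ofReal_mul (by positivity),
      ← ENNReal.ofReal_mul (by positivity)]
    congr 1
    ring
  rw [h3]
  calc ENNReal.ofReal (‖deriv Φ z‖ * ‖deriv Φ w‖ * (‖Φ z - conj (Φ w)‖ ^ 2)⁻¹)
      = ENNReal.ofReal (4 ^ 16 / π) * (ENNReal.ofReal (‖deriv Φ z‖ * ‖deriv Φ w‖) *
          ENNReal.ofReal (π * (4 ^ 16)⁻¹ * (‖Φ z - conj (Φ w)‖ ^ 2)⁻¹)) := by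
        rw [← ENNReal.ofReal_mul (by positivity), ← ENNReal.ofReal_mul (by positivity)]
        congr 1
        have := Real.pi_pos
        field_simp
    _ ≤ _ := by
        gcongr
        exact est3 h hz hw

end

end Vale.Agent.P142.H521
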