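import Vale.Agent.P142.H521.Disc
import Vale.Agent.P142.H521.MeanV
import Vale.Agent.P142.H521.BDefs

/-!
P142, Bergman projection: definition, integrability, holomorphy and boundedness.
-/

open Complex MeasureTheory Metric Set Filter Topology
open scoped Real ComplexConjugate ENNReal

namespace Vale.Agent.P142

noncomputable section

namespace H521

lemma one_sub_le {x y : ℂ} (_hx : ‖x‖ < 1) (hy : ‖y‖ < 1) : 1 - ‖x‖ ≤ ‖1 - x * conj y‖ := by
  have h1 : ‖x * conj y‖ ≤ ‖x‖ := by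
    rw [norm_mul, Complex.norm_conj]
    nlinarith [norm_nonneg x, norm_nonneg y]
  have h2 : ‖(1 : ℂ)‖ - ‖x * conj y‖ ≤ ‖1 - x * conj y‖ := norm_sub_norm_le _ _
  rw [norm_one] at h2
  linarith

lemma one_sub_ne {x y : ℂ} (hx : ‖x‖ < 1) (hy : ‖y‖ < 1) : 1 - x * conj y ≠ 0 := by
  have := one_sub_le hx hy
  rw [← norm_pos_iff]
  linarith

variable {W : Set ℂ} {φ : ℂ → ℂ}

/-- `conj(φ') g` is integrable -/
lemma integrable_F {p : ℝ} (hp1 : 4 / 3 < p) (hp2 : p < 4) (hW : IsOpen W)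
    (hd : DifferentiableOn ℂ φ W) (hb : BijOn φ W (ball 0 1)) {g : ℂ → ℂ}
    (hg : AEStronglyMeasurable g (volume.restrict W))
    (hgp : ∫⁻ w in W, ‖g w‖ₑ ^ p < ⊤) :
    IntegrableOn (fun w => conj (deriv φ w) * g w) W := by
  have hp : 1 < p := by linarith
  have hp0 : 0 < p - 1 := by linarith
  have hq1 : 4 / 3 < p / (p - 1) := by
    rw [lt_div_iff₀ hp0]; linarith
  have hq2 : p / (p - 1) < 4 := by
    rw [div_lt_iff₀ hp0]; linarith
  have hpq : p.HolderConjugate (p / (p - 1)) := Real.HolderConjugate.conjExponent hp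
  have hm : AEStronglyMeasurable (fun w => conj (deriv φ w)) (volume.restrict W) :=
    (Complex.continuous_conj.measurable.comp (measurable_deriv φ)).aestronglyMeasurable
  refine ⟨hm.mul hg, ?_⟩
  rw [hasFiniteIntegral_iff_enorm]
  have h1 := ENNReal.lintegral_mul_le_Lp_mul_Lq (volume.restrict W) hpq
    (f := fun w => ‖g w‖ₑ) (g := fun w => ‖deriv φ w‖ₑ) hg.enorm
    (measurable_deriv φ).enorm.aemeasurable
  have h2 : ∫⁻ w in W, ‖conj (deriv φ w) * g w‖ₑ =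
      ∫⁻ w in W, ((fun w => ‖g w‖ₑ) * fun w => ‖deriv φ w‖ₑ) w := by
    apply lintegral_congr
    intro w
    simp only [Pi.mul_apply]
    rw [enorm_mul, mul_comm]
    congr 1
    rw [← ofReal_norm, ← ofReal_norm, Complex.norm_conj]
  rw [h2]
  refine lt_of_le_of_lt h1 (ENNReal.mul_lt_top ?_ ?_)
  · exact ENNReal.rpow_lt_top_of_nonneg (by positivity) hgp.ne
  · apply ENNReal.rpow_lt_top_of_nonneg (by positivity)
    have h3 := H838.main.1.1 W φ hW hd hb (p / (p - 1)) hq1 hq2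
    have h4 : ∫⁻ w in W, ‖deriv φ w‖ₑ ^ (p / (p - 1)) =
        ∫⁻ w in W, ENNReal.ofReal (‖deriv φ w‖ ^ (p / (p - 1))) := by
      apply lintegral_congr
      intro w
      rw [← ofReal_norm, ENNReal.ofReal_rpow_of_nonneg (norm_nonneg _) (by positivity)]
    rw [h4]
    exact h3.ne

lemma aesm_phi (hW : IsOpen W) (hd : DifferentiableOn ℂ φ W) (x : ℂ) :
    AEStronglyMeasurable (fun w => 1 - x * conj (φ w)) (volume.restrict W) := by
  have h1 : AEStronglyMeasurable φ (volume.restrict W) :=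
    hd.continuousOn.aestronglyMeasurable hW.measurableSet
  have h2 : AEStronglyMeasurable (fun w => conj (φ w)) (volume.restrict W) :=
    Complex.continuous_conj.comp_aestronglyMeasurable h1
  exact aestronglyMeasurable_const.sub (aestronglyMeasurable_const.mul h2)

lemma aesm_inv (hW : IsOpen W) (hd : DifferentiableOn ℂ φ W) (x : ℂ) (n : ℕ) :
    AEStronglyMeasurable (fun w => ((1 - x * conj (φ w)) ^ n)⁻¹) (volume.restrict W) := by
  have h1 : AEStronglyMeasurable (fun w => (1 - x * conj (φ w)) ^ n) (volume.restrict W) :=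
    (aesm_phi hW hd x).pow n
  exact h1.inv₀

lemma aesm_mul (hW : IsOpen W) (hd : DifferentiableOn ℂ φ W) {F : ℂ → ℂ}
    (hF : AEStronglyMeasurable F (volume.restrict W)) (x : ℂ) (n : ℕ) :
    AEStronglyMeasurable (fun w => ((1 - x * conj (φ w)) ^ n)⁻¹ * F w) (volume.restrict W) :=
  (aesm_inv hW hd x n).mul hF

lemma aesm_mul3 (hW : IsOpen W) (hd : DifferentiableOn ℂ φ W) {F : ℂ → ℂ}
    (hF : AEStronglyMeasurable F (volume.restrict W)) (x : ℂ) :
    AEStronglyMeasurable (fun w => 2 * conj (φ w) * (((1 - x * conj (φ w)) ^ 3)⁻¹ * F w))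
      (volume.restrict W) := by
  have h1 : AEStronglyMeasurable (fun w => 2 * conj (φ w)) (volume.restrict W) :=
    aestronglyMeasurable_const.mul (Complex.continuous_conj.comp_aestronglyMeasurable
      (hd.continuousOn.aestronglyMeasurable hW.measurableSet))
  exact h1.mul (aesm_mul hW hd hF x 3)

lemma low (hb : BijOn φ W (ball 0 1)) {ε : ℝ} {x : ℂ} (hx : ‖x‖ < 1) (hxε : ε ≤ 1 - ‖x‖) {w : ℂ}
    (hw : w ∈ W) : ε ≤ ‖1 - x * conj (φ w)‖ := by
  have hw1 : ‖φ w‖ < 1 := by simpa using hb.mapsTo hw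
  exact hxε.trans (one_sub_le hx hw1)

lemma integrable_Psi (hW : IsOpen W) (hd : DifferentiableOn ℂ φ W) (hb : BijOn φ W (ball 0 1))
    {F : ℂ → ℂ} (hF : IntegrableOn F W) {x₀ : ℂ} (hx : ‖x₀‖ < 1) :
    Integrable (fun w => ((1 - x₀ * conj (φ w)) ^ 2)⁻¹ * F w) (volume.restrict W) := by
  have h0 : 0 < 1 - ‖x₀‖ := by linarith
  refine Integrable.bdd_mul (c := ((1 - ‖x₀‖) ^ 2)⁻¹) hF (aesm_inv hW hd x₀ 2) ?_
  filter_upwards [ae_restrict_mem hW.measurableSet] with w hw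
  have := low hb hx le_rfl hw
  rw [norm_inv, norm_pow]
  gcongr

lemma hasDerivAt_aux {x c : ℂ} (hne : 1 - x * c ≠ 0) (a : ℂ) :
    HasDerivAt (fun x => ((1 - x * c) ^ 2)⁻¹ * a) (2 * c * (((1 - x * c) ^ 3)⁻¹ * a)) x := by
  have h5 : HasDerivAt (fun x => 1 - x * c) (-c) x := by
    simpa using ((hasDerivAt_id x).mul_const c).const_sub 1
  have h6 := ((h5.pow 2).inv (pow_ne_zero 2 hne)).mul_const a
  refine h6.congr_deriv ?_
  simp only [Pi.pow_apply]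
  field_simp
  ring

lemma norm_aux {ε : ℝ} (hε0 : 0 < ε) {d c a : ℂ} (hd : ε ≤ ‖d‖) (hc : ‖c‖ < 1) :
    ‖2 * conj c * ((d ^ 3)⁻¹ * a)‖ ≤ 2 * (ε ^ 3)⁻¹ * ‖a‖ := by
  rw [norm_mul, norm_mul, norm_mul, norm_inv, norm_pow, Complex.norm_conj, Complex.norm_two]
  have h5 : (‖d‖ ^ 3)⁻¹ ≤ (ε ^ 3)⁻¹ := by gcongr
  calc 2 * ‖c‖ * ((‖d‖ ^ 3)⁻¹ * ‖a‖) ≤ 2 * 1 * ((ε ^ 3)⁻¹ * ‖a‖) := by gcongr
    _ = _ := by ring

/-- the auxiliary holomorphic function on the disc -/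
lemma hasDerivAt_Psi (hW : IsOpen W) (hd : DifferentiableOn ℂ φ W) (hb : BijOn φ W (ball 0 1))
    {F : ℂ → ℂ} (hF : IntegrableOn F W) {x₀ : ℂ} (hx : ‖x₀‖ < 1) :
    DifferentiableAt ℂ (fun x => ∫ w in W, ((1 - x * conj (φ w)) ^ 2)⁻¹ * F w) x₀ := by
  set ε : ℝ := (1 - ‖x₀‖) / 2 with hε
  have hε0 : 0 < ε := by rw [hε]; linarith
  have hs : ball x₀ ε ∈ 𝓝 x₀ := ball_mem_nhds _ hε0
  have hsx : ∀ x ∈ ball x₀ ε, ‖x‖ < 1 ∧ ε ≤ 1 - ‖x‖ := by
    intro x hx'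
    rw [mem_ball, dist_eq_norm] at hx'
    have h1 : ‖x‖ ≤ ‖x₀‖ + ‖x - x₀‖ := by
      have := norm_add_le x₀ (x - x₀)
      rwa [add_sub_cancel] at this
    constructor <;> linarith
  have hbd : ∀ᵐ w ∂(volume.restrict W), ∀ x ∈ ball x₀ ε,
      ‖2 * conj (φ w) * (((1 - x * conj (φ w)) ^ 3)⁻¹ * F w)‖ ≤ 2 * (ε ^ 3)⁻¹ * ‖F w‖ := by
    filter_upwards [ae_restrict_mem hW.measurableSet] with w hw x hx'
    have hw1 : ‖φ w‖ < 1 := by simpa using hb.mapsTo hw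
    exact norm_aux hε0 (low hb (hsx x hx').1 (hsx x hx').2 hw) hw1
  have hdf : ∀ᵐ w ∂(volume.restrict W), ∀ x ∈ ball x₀ ε,
      HasDerivAt (fun x => ((1 - x * conj (φ w)) ^ 2)⁻¹ * F w)
        (2 * conj (φ w) * (((1 - x * conj (φ w)) ^ 3)⁻¹ * F w)) x := by
    filter_upwards [ae_restrict_mem hW.measurableSet] with w hw x hx'
    have hw1 : ‖φ w‖ < 1 := by simpa using hb.mapsTo hw
    exact hasDerivAt_aux (one_sub_ne (hsx x hx').1 hw1) (F w)
  exact (hasDerivAt_integral_of_dominated_loc_of_deriv_le (μ := volume.restrict W)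
    (F := fun x w => ((1 - x * conj (φ w)) ^ 2)⁻¹ * F w)
    (F' := fun x w => 2 * conj (φ w) * (((1 - x * conj (φ w)) ^ 3)⁻¹ * F w))
    (bound := fun w => 2 * (ε ^ 3)⁻¹ * ‖F w‖) hs
    (Eventually.of_forall fun x => aesm_mul hW hd hF.1 x 2) (integrable_Psi hW hd hb hF hx)
    (aesm_mul3 hW hd hF.1 x₀) hbd (hF.norm.const_mul _) hdf).2.differentiableAt

end H521

end

end Vale.Agent.P142
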