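import Vale.Agent.P142.H521.Proj

/-!
P142, Bergman projection: integrability, holomorphy and boundedness.
-/

open Complex MeasureTheory Metric Set Filter Topology
open scoped Real ComplexConjugate ENNReal

namespace Vale.Agent.P142.H521

noncomputable section

variable {W : Set ℂ} {φ : ℂ → ℂ}

lemma bergK_mul (φ : ℂ → ℂ) (g : ℂ → ℂ) (z w : ℂ) : bergK φ z w * g w =
    (deriv φ z / π) * (((1 - φ z * conj (φ w)) ^ 2)⁻¹ * (conj (deriv φ w) * g w)) := by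
  unfold bergK
  rw [div_mul_eq_mul_div, div_eq_mul_inv, mul_inv, div_eq_mul_inv]
  ring

/-- (a) -/
theorem berg_integrable {p : ℝ} (hp1 : 4 / 3 < p) (hp2 : p < 4) (hW : IsOpen W)
    (hd : DifferentiableOn ℂ φ W) (hb : BijOn φ W (ball 0 1)) {g : ℂ → ℂ}
    (hg : AEStronglyMeasurable g (volume.restrict W))
    (hgp : ∫⁻ w in W, ‖g w‖ₑ ^ p < ⊤) {z : ℂ} (hz : z ∈ W) :
    IntegrableOn (fun w => bergK φ z w * g w) W := by
  have hz1 : ‖φ z‖ < 1 := by simpa using hb.mapsTo hz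
  simp only [bergK_mul]
  exact (integrable_Psi hW hd hb (integrable_F hp1 hp2 hW hd hb hg hgp) hz1).const_mul _

lemma bergP_eq (W : Set ℂ) (φ : ℂ → ℂ) (g : ℂ → ℂ) (z : ℂ) : bergP W φ g z =
    (deriv φ z / π) * (fun x => ∫ w in W, ((1 - x * conj (φ w)) ^ 2)⁻¹ *
      (conj (deriv φ w) * g w)) (φ z) := by
  unfold bergP
  simp only [bergK_mul]
  rw [integral_const_mul]

/-- (b) -/
theorem berg_holo {p : ℝ} (hp1 : 4 / 3 < p) (hp2 : p < 4) (hW : IsOpen W)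
    (hd : DifferentiableOn ℂ φ W) (hb : BijOn φ W (ball 0 1)) {g : ℂ → ℂ}
    (hg : AEStronglyMeasurable g (volume.restrict W))
    (hgp : ∫⁻ w in W, ‖g w‖ₑ ^ p < ⊤) : DifferentiableOn ℂ (bergP W φ g) W := by
  intro z hz
  have hz1 : ‖φ z‖ < 1 := by simpa using hb.mapsTo hz
  have h1 := hasDerivAt_Psi hW hd hb (integrable_F hp1 hp2 hW hd hb hg hgp) hz1
  have h2 : DifferentiableAt ℂ φ z := hd.differentiableAt (hW.mem_nhds hz)
  have h3 : DifferentiableAt ℂ (deriv φ) z := (hd.deriv hW).differentiableAt (hW.mem_nhds hz)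
  have h4 : bergP W φ g = fun z => (deriv φ z / π) *
      (fun x => ∫ w in W, ((1 - x * conj (φ w)) ^ 2)⁻¹ * (conj (deriv φ w) * g w)) (φ z) := by
    funext z
    exact bergP_eq W φ g z
  rw [h4]
  exact ((h3.div_const _).mul (h1.comp z h2)).differentiableWithinAt

lemma bergK_le (φ : ℂ → ℂ) (z w : ℂ) : ‖bergK φ z w‖ₑ ≤
    ENNReal.ofReal (‖deriv φ z‖ * ‖deriv φ w‖ * (‖1 - φ z * conj (φ w)‖ ^ 2)⁻¹) := by
  rw [← ofReal_norm]
  apply ENNReal.ofReal_le_ofReal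
  unfold bergK
  rw [norm_div, norm_mul, norm_mul, norm_pow, Complex.norm_conj, Complex.norm_real,
    Real.norm_eq_abs, abs_of_pos Real.pi_pos, div_eq_mul_inv, mul_inv]
  have h1 : π⁻¹ ≤ 1 := inv_le_one_of_one_le₀ (by linarith [Real.pi_gt_three])
  have h2 : 0 ≤ (‖1 - φ z * conj (φ w)‖ ^ 2)⁻¹ := by positivity
  calc ‖deriv φ z‖ * ‖deriv φ w‖ * (π⁻¹ * (‖1 - φ z * conj (φ w)‖ ^ 2)⁻¹)
      ≤ ‖deriv φ z‖ * ‖deriv φ w‖ * (1 * (‖1 - φ z * conj (φ w)‖ ^ 2)⁻¹) := by gcongr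
    _ = _ := by rw [one_mul]

/-- (c) -/
theorem berg_bdd {p : ℝ} (hp1 : 4 / 3 < p) (hp2 : p < 4) : ∃ C : ℝ, 0 < C ∧
    ∀ (W : Set ℂ) (φ : ℂ → ℂ), IsOpen W → DifferentiableOn ℂ φ W → BijOn φ W (ball 0 1) →
    ∀ g : ℂ → ℂ, AEStronglyMeasurable g (volume.restrict W) →
    ∫⁻ z in W, (∫⁻ w in W, ‖bergK φ z w‖ₑ * ‖g w‖ₑ) ^ p ≤
      ENNReal.ofReal C * ∫⁻ w in W, ‖g w‖ₑ ^ p := by
  obtain ⟨C, hC, h0⟩ := bdd_disc hp1 hp2
  refine ⟨C.toReal + 1, by positivity, fun W φ hW hd hb g hg => ?_⟩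
  have h1 := h0 W φ hW hd hb (fun w => ‖g w‖ₑ) hg.enorm
  calc ∫⁻ z in W, (∫⁻ w in W, ‖bergK φ z w‖ₑ * ‖g w‖ₑ) ^ p
      ≤ ∫⁻ z in W, (∫⁻ w in W,
      ENNReal.ofReal (‖deriv φ z‖ * ‖deriv φ w‖ * (‖1 - φ z * conj (φ w)‖ ^ 2)⁻¹) *
        ‖g w‖ₑ) ^ p := by
        apply lintegral_mono
        intro z
        apply ENNReal.rpow_le_rpow _ (by linarith)
        apply lintegral_mono
        intro w
        exact mul_le_mul_left (bergK_le φ z w) _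
    _ ≤ C * ∫⁻ w in W, ‖g w‖ₑ ^ p := h1
    _ ≤ _ := by
        gcongr
        rw [← ENNReal.ofReal_toReal hC]
        apply ENNReal.ofReal_le_ofReal
        rw [ENNReal.toReal_ofReal ENNReal.toReal_nonneg]
        linarith

end

end Vale.Agent.P142.H521
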