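import Vale.Agent.P142.H521.Proj2

/-!
P142, Bergman projection: the reproducing property.
-/

open Complex MeasureTheory Metric Set Filter Topology
open scoped Real ComplexConjugate ENNReal

namespace Vale.Agent.P142.H521

open Vale.Agent.P142

noncomputable section

lemma mob_den {a x : ℂ} (ha : ‖a‖ < 1) (hx : ‖x‖ < 1) : 1 - conj a * x ≠ 0 := by
  have h := one_sub_ne hx ha
  rwa [mul_comm] at h

lemma mob_norm {a x : ℂ} (ha : ‖a‖ < 1) (hx : ‖x‖ < 1) : ‖(x - a) / (1 - conj a * x)‖ < 1 := by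
  have h0 : 0 < ‖1 - conj a * x‖ := norm_pos_iff.mpr (mob_den ha hx)
  rw [norm_div, div_lt_one h0]
  have h1 : ‖1 - conj a * x‖ ^ 2 - ‖x - a‖ ^ 2 = (1 - ‖a‖ ^ 2) * (1 - ‖x‖ ^ 2) := by
    rw [← Complex.normSq_eq_norm_sq, ← Complex.normSq_eq_norm_sq, ← Complex.normSq_eq_norm_sq,
      ← Complex.normSq_eq_norm_sq, Complex.normSq_apply, Complex.normSq_apply,
      Complex.normSq_apply, Complex.normSq_apply]
    simp
    ring
  have h2 : 0 < (1 - ‖a‖ ^ 2) * (1 - ‖x‖ ^ 2) := by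
    have := norm_nonneg a
    have := norm_nonneg x
    apply mul_pos <;> nlinarith
  nlinarith [norm_nonneg (x - a)]

lemma mob_inv {a x : ℂ} (ha : ‖a‖ < 1) (hx : ‖x‖ < 1) :
    ((x - a) / (1 - conj a * x) - -a) / (1 - conj (-a) * ((x - a) / (1 - conj a * x))) = x := by
  have h0 := mob_den ha hx
  have h0' : 1 - x * conj a ≠ 0 := one_sub_ne hx ha
  have h1 : (1 : ℂ) - a * conj a ≠ 0 := one_sub_ne ha ha
  have h2 : (1 : ℂ) - conj (-a) * ((x - a) / (1 - conj a * x)) =
      (1 - a * conj a) / (1 - conj a * x) := by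
    rw [map_neg]
    field_simp
    ring
  have h3 : (x - a) / (1 - conj a * x) - -a = x * (1 - a * conj a) / (1 - conj a * x) := by
    field_simp
    ring
  rw [h2, h3]
  field_simp

lemma mob_bijOn {a : ℂ} (ha : ‖a‖ < 1) :
    BijOn (fun x => (x - a) / (1 - conj a * x)) (ball 0 1) (ball 0 1) := by
  have ha' : ‖-a‖ < 1 := by rwa [norm_neg]
  have hinv : InvOn (fun x => (x - -a) / (1 - conj (-a) * x))
      (fun x => (x - a) / (1 - conj a * x)) (ball 0 1) (ball 0 1) := by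
    constructor
    · intro x hx
      exact mob_inv ha (by simpa using hx)
    · intro x hx
      have := mob_inv ha' (x := x) (by simpa using hx)
      rw [neg_neg] at this
      exact this
  refine hinv.bijOn ?_ ?_
  · intro x hx
    rw [mem_ball_zero_iff]
    exact mob_norm ha (by simpa using hx)
  · intro x hx
    rw [mem_ball_zero_iff]
    exact mob_norm ha' (by simpa using hx)

lemma mob_deriv {a x : ℂ} (ha : ‖a‖ < 1) (hx : ‖x‖ < 1) :
    HasDerivAt (fun x => (x - a) / (1 - conj a * x)) ((1 - a * conj a) / (1 - conj a * x) ^ 2)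
      x := by
  have h0 := mob_den ha hx
  have h1 : HasDerivAt (fun x : ℂ => x - a) 1 x := (hasDerivAt_id x).sub_const a
  have h2 : HasDerivAt (fun x : ℂ => 1 - conj a * x) (-(conj a)) x := by
    simpa using ((hasDerivAt_id x).const_mul (conj a)).const_sub 1
  refine (h1.div h2 h0).congr_deriv ?_
  congr 1
  ring

variable {W : Set ℂ} {φ : ℂ → ℂ}

/-- recentring -/
lemma recentre (hW : IsOpen W) (hd : DifferentiableOn ℂ φ W) (hb : BijOn φ W (ball 0 1)) {z₀ : ℂ}
    (hz₀ : z₀ ∈ W) : ∃ χ : ℂ → ℂ, DifferentiableOn ℂ χ W ∧ BijOn χ W (ball 0 1) ∧ χ z₀ = 0 ∧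
    ∀ w ∈ W, bergK φ z₀ w = deriv χ z₀ / π * conj (deriv χ w) := by
  set a : ℂ := φ z₀ with ha0
  have ha : ‖a‖ < 1 := by simpa using hb.mapsTo hz₀
  have hlt : ∀ w ∈ W, ‖φ w‖ < 1 := fun w hw => by simpa using hb.mapsTo hw
  have hder : ∀ w ∈ W, HasDerivAt (fun w => (φ w - a) / (1 - conj a * φ w))
      ((1 - a * conj a) / (1 - conj a * φ w) ^ 2 * deriv φ w) w := by
    intro w hw
    have h1 := mob_deriv ha (hlt w hw)
    have h2 : HasDerivAt φ (deriv φ w) w := (hd.differentiableAt (hW.mem_nhds hw)).hasDerivAt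
    exact h1.comp w h2
  refine ⟨fun w => (φ w - a) / (1 - conj a * φ w), ?_, ?_, ?_, ?_⟩
  · intro w hw
    exact (hder w hw).differentiableAt.differentiableWithinAt
  · exact (mob_bijOn ha).comp hb
  · simp only [← ha0, sub_self, zero_div]
  · intro w hw
    rw [(hder z₀ hz₀).deriv, (hder w hw).deriv, bergK, ← ha0]
    have h1 : (1 : ℂ) - a * conj a ≠ 0 := one_sub_ne ha ha
    have h2 : (1 : ℂ) - a * conj (φ w) ≠ 0 := one_sub_ne ha (hlt w hw)
    have h3 : (1 : ℂ) - conj a * a ≠ 0 := by rwa [mul_comm] at h1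
    have hpi : (π : ℂ) ≠ 0 := Complex.ofReal_ne_zero.mpr Real.pi_pos.ne'
    simp only [map_mul, map_div₀, map_sub, map_one, map_pow, Complex.conj_conj]
    rw [mul_comm (conj a) a]
    field_simp

end

end Vale.Agent.P142.H521
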