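import Vale.Agent.P142.H521.Repro

/-!
P142, Bergman projection: the reproducing property (conclusion).
-/

open Complex MeasureTheory Metric Set Filter Topology
open scoped Real ComplexConjugate ENNReal

namespace Vale.Agent.P142.H521

open Vale.Agent.P142

noncomputable section

variable {W : Set ℂ} {χ : ℂ → ℂ}

/-- the inverse of a conformal map onto the disc -/
lemma exists_inv (hW : IsOpen W) (hd : DifferentiableOn ℂ χ W) (hb : BijOn χ W (ball 0 1)) :
    ∃ f : ℂ → ℂ, InvOn f χ W (ball 0 1) ∧ BijOn f (ball 0 1) W ∧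
      ∀ z ∈ ball (0 : ℂ) 1, HasDerivAt f (deriv χ (f z))⁻¹ z := by
  set f : ℂ → ℂ := Function.invFunOn χ W with hf
  have hinv : InvOn f χ W (ball 0 1) := hb.invOn_invFunOn
  have hbij' : BijOn f (ball 0 1) W := (bijOn_comm hinv).mpr hb
  refine ⟨f, hinv, hbij', ?_⟩
  intro z hz
  have ha : f z ∈ W := hbij'.mapsTo hz
  have hd : HasStrictDerivAt χ (deriv χ (f z)) (f z) :=
    (hd.analyticAt (hW.mem_nhds ha)).hasStrictDerivAt
  have hne : deriv χ (f z) ≠ 0 := injOn_deriv_ne_zero hW ‹_› hb.injOn ha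
  have hev : ∀ᶠ x in 𝓝 (f z), f (χ x) = x := by
    filter_upwards [hW.mem_nhds ha] with x hx
    exact hinv.1 hx
  have h1 := hd.to_local_left_inverse hne hev
  rw [hinv.2 hz] at h1
  exact h1.hasDerivAt

lemma det_smul {d : ℂ} (hd : d ≠ 0) (u : ℂ) :
    |((ContinuousLinearMap.toSpanSingleton ℂ d).restrictScalars ℝ).det| • (conj (d⁻¹) * u) =
      d * u := by
  rw [abs_det_holo, Complex.real_smul, ← Complex.normSq_eq_norm_sq, ← Complex.mul_conj, map_inv₀]
  have : conj d ≠ 0 := (map_ne_zero _).mpr hd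
  field_simp

/-- the reproducing formula at the centre -/
lemma centre (hW : IsOpen W) (hd : DifferentiableOn ℂ χ W) (hb : BijOn χ W (ball 0 1)) {z₀ : ℂ}
    (hz₀ : z₀ ∈ W) (h0 : χ z₀ = 0) {g : ℂ → ℂ} (hg : DifferentiableOn ℂ g W)
    (hi : IntegrableOn (fun w => conj (deriv χ w) * g w) W) :
    ∫ w in W, conj (deriv χ w) * g w = π * ((deriv χ z₀)⁻¹ * g z₀) := by
  obtain ⟨f, hinv, hbij, hder⟩ := exists_inv hW hd hb
  have hf0 : f 0 = z₀ := by
    have := hinv.1 hz₀
    rwa [h0] at this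
  have hdf : DifferentiableOn ℂ f (ball 0 1) := fun z hz =>
    (hder z hz).differentiableAt.differentiableWithinAt
  have hne : ∀ z ∈ ball (0 : ℂ) 1, deriv f z ≠ 0 := by
    intro z hz
    rw [(hder z hz).deriv]
    exact inv_ne_zero (injOn_deriv_ne_zero hW hd hb.injOn (hbij.mapsTo hz))
  have hχ : ∀ z ∈ ball (0 : ℂ) 1, deriv χ (f z) = (deriv f z)⁻¹ := by
    intro z hz
    rw [(hder z hz).deriv, inv_inv]
  have hf' : ∀ z ∈ ball (0 : ℂ) 1, HasFDerivWithinAt f
      ((ContinuousLinearMap.toSpanSingleton ℂ (deriv f z)).restrictScalars ℝ) (ball 0 1) z := by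
    intro z hz
    exact (((hdf.differentiableAt (isOpen_ball.mem_nhds hz)).hasDerivAt.hasFDerivAt).restrictScalars
        ℝ).hasFDerivWithinAt
  have h1 := integral_image_eq_integral_abs_det_fderiv_smul volume measurableSet_ball hf'
    hbij.injOn (fun w => conj (deriv χ w) * g w)
  have h2 := (integrableOn_image_iff_integrableOn_abs_det_fderiv_smul volume measurableSet_ball hf'
    hbij.injOn (fun w => conj (deriv χ w) * g w)).mp (by rw [hbij.image_eq]; exact hi)
  rw [hbij.image_eq] at h1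
  have hcongr : ∀ z ∈ ball (0 : ℂ) 1,
      |((ContinuousLinearMap.toSpanSingleton ℂ (deriv f z)).restrictScalars ℝ).det| •
        (conj (deriv χ (f z)) * g (f z)) = deriv f z * g (f z) := by
    intro z hz
    rw [hχ z hz, det_smul (hne z hz)]
  have h3 : IntegrableOn (fun z => deriv f z * g (f z)) (ball 0 1) :=
    h2.congr_fun hcongr measurableSet_ball
  have h4 : DifferentiableOn ℂ (fun z => deriv f z * g (f z)) (ball 0 1) :=
    (hdf.deriv isOpen_ball).mul (hg.comp hdf hbij.mapsTo)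
  rw [h1, setIntegral_congr_fun measurableSet_ball hcongr, mean_value h4 h3,
    (hder 0 (mem_ball_self one_pos)).deriv, hf0]

/-- (d) the **reproducing property** -/
theorem berg_repro {φ : ℂ → ℂ} {p : ℝ} (hp1 : 4 / 3 < p) (hp2 : p < 4) (hW : IsOpen W)
    (hd : DifferentiableOn ℂ φ W) (hb : BijOn φ W (ball 0 1)) {g : ℂ → ℂ}
    (hg : DifferentiableOn ℂ g W)
    (hgp : ∫⁻ w in W, ‖g w‖ₑ ^ p < ⊤) {z : ℂ} (hz : z ∈ W) : bergP W φ g z = g z := by
  obtain ⟨χ, hχd, hχb, hχ0, hK⟩ := recentre hW hd hb hz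
  have hgm : AEStronglyMeasurable g (volume.restrict W) :=
    hg.continuousOn.aestronglyMeasurable hW.measurableSet
  have h1 := centre hW hχd hχb hz hχ0 hg (integrable_F hp1 hp2 hW hχd hχb hgm hgp)
  have h2 : bergP W φ g z = deriv χ z / π * ∫ w in W, conj (deriv χ w) * g w := by
    unfold bergP
    rw [← integral_const_mul]
    apply setIntegral_congr_fun hW.measurableSet
    intro w hw
    simp only
    rw [hK w hw]
    ring
  have hne : deriv χ z ≠ 0 := injOn_deriv_ne_zero hW hχd hχb.injOn hz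
  have hpi : (π : ℂ) ≠ 0 := Complex.ofReal_ne_zero.mpr Real.pi_pos.ne'
  rw [h2, h1]
  field_simp

end

end Vale.Agent.P142.H521
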