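import Vale.Agent.P142.H521.Repro2

/-!
P142, Bergman projection: sharpness of the range of exponents.
-/

open Complex MeasureTheory Metric Set Filter Topology
open scoped Real ComplexConjugate ENNReal

namespace Vale.Agent.P142.H521

open Vale.Agent.P142

noncomputable section

lemma top_of_low {μ : Measure ℂ} {u : ℂ → ℝ≥0∞} {s : ℕ → Set ℂ}
    (hs : Tendsto (fun n => μ (s n)) atTop (𝓝 0)) {c : ℝ≥0∞} (hc : c ≠ 0)
    (hlow : ∀ n, c ≤ ∫⁻ x in s n, u x ∂μ) : ∫⁻ x, u x ∂μ = ⊤ := by
  by_contra h
  have h1 := tendsto_setLIntegral_zero (μ := μ) (f := u) h (l := atTop) (s := s) hs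
  have h2 : c ≤ 0 := ge_of_tendsto' h1 hlow
  exact hc (le_antisymm h2 bot_le)

/-- a univalent function with non-integrable powers of the derivative at both critical exponents -/
lemma exists_koebe : ∃ f ∈ ClassS, ∀ p : ℝ, (p ≤ 4 / 3 ∨ 4 ≤ p) →
    ∫⁻ z in ball (0 : ℂ) 1, ENNReal.ofReal (‖deriv f z‖ ^ (2 - p)) = ⊤ := by
  obtain ⟨-, ⟨C, hC, -, hup⟩, ⟨f, hf, hlow1, hlow2⟩, -⟩ := H838.main
  have hm : Measurable fun z => ‖deriv f z‖ := (measurable_deriv f).norm
  have hne : ∀ z ∈ ball (0 : ℂ) 1, 0 < ‖deriv f z‖ := fun z hz =>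
    norm_pos_iff.mpr (univ_deriv_ne_zero ⟨hf.1, hf.2.1⟩ hz)
  refine ⟨f, hf, fun p hp => ?_⟩
  have hpi := Real.pi_pos
  rcases hp with hp | hp
  · set l : ℕ → ℝ := fun n => (n : ℝ) + 1 with hl
    have hl1 : ∀ n, 1 ≤ l n := fun n => by
      have : (0 : ℝ) ≤ n := Nat.cast_nonneg n
      simp only [hl]; linarith
    set s : ℕ → Set ℂ := fun n => {z | z ∈ ball (0 : ℂ) 1 ∧ l n < ‖deriv f z‖} with hs
    have hsm : ∀ n, MeasurableSet (s n) := fun n =>
      measurableSet_ball.inter (measurableSet_lt measurable_const hm)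
    have hsub : ∀ n, s n ⊆ ball (0 : ℂ) 1 := fun n z hz => hz.1
    have hr : ∀ n, volume.restrict (ball (0 : ℂ) 1) (s n) = volume (s n) := fun n => by
      rw [Measure.restrict_apply (hsm n), inter_eq_left.mpr (hsub n)]
    have hlim : Tendsto (fun n => volume.restrict (ball (0 : ℂ) 1) (s n)) atTop (𝓝 0) := by
      have h1 : Tendsto (fun n => ENNReal.ofReal (C * l n ^ (-(2 / 3) : ℝ))) atTop (𝓝 0) := by
        have h2 : Tendsto l atTop atTop :=
          tendsto_atTop_add_const_right _ _ tendsto_natCast_atTop_atTop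
        have h3 := ((tendsto_rpow_neg_atTop (y := 2 / 3) (by norm_num)).comp h2).const_mul C
        rw [mul_zero] at h3
        have h4 := ENNReal.tendsto_ofReal h3
        rw [ENNReal.ofReal_zero] at h4
        exact h4
      refine tendsto_of_tendsto_of_tendsto_of_le_of_le tendsto_const_nhds h1
        (fun n => bot_le) (fun n => ?_)
      simp only [hr]
      exact ((hup f hf).1 (l n) (by linarith [hl1 n])).2
    refine top_of_low hlim (c := ENNReal.ofReal (π / 4)) (by simp [hpi]) fun n => ?_
    have hl0 : 0 < l n := by linarith [hl1 n]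
    calc ENNReal.ofReal (π / 4)
        ≤ ENNReal.ofReal (l n ^ (2 - p)) * ENNReal.ofReal (π / 4 * l n ^ (-(2 / 3) : ℝ)) := by
          rw [← ENNReal.ofReal_mul (by positivity)]
          apply ENNReal.ofReal_le_ofReal
          have h5 : l n ^ (2 - p) * l n ^ (-(2 / 3) : ℝ) = l n ^ (4 / 3 - p) := by
            rw [← Real.rpow_add hl0]
            congr 1
            ring
          have h6 : 1 ≤ l n ^ (4 / 3 - p) := Real.one_le_rpow (hl1 n) (by linarith)
          calc π / 4 = π / 4 * 1 := (mul_one _).symm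
            _ ≤ π / 4 * l n ^ (4 / 3 - p) := by gcongr
            _ = _ := by rw [← h5]; ring
      _ ≤ ENNReal.ofReal (l n ^ (2 - p)) * volume.restrict (ball (0 : ℂ) 1) (s n) := by
          rw [hr]
          exact mul_le_mul_right (hlow2 (l n) (hl1 n)) _
      _ = ∫⁻ z in s n, ENNReal.ofReal (l n ^ (2 - p)) ∂(volume.restrict (ball (0 : ℂ) 1)) := by
          rw [setLIntegral_const]
      _ ≤ _ := by
          apply setLIntegral_mono' (hsm n)
          intro z hz
          apply ENNReal.ofReal_le_ofReal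
          exact Real.rpow_le_rpow hl0.le hz.2.le (by linarith)
  · set l : ℕ → ℝ := fun n => 1 / ((n : ℝ) + 1) with hl
    have hl0 : ∀ n, 0 < l n := fun n => by
      simp only [hl]; positivity
    have hl1 : ∀ n, l n ≤ 1 := fun n => by
      have : (0 : ℝ) ≤ n := Nat.cast_nonneg n
      simp only [hl]
      rw [div_le_one (by positivity)]
      linarith
    set s : ℕ → Set ℂ := fun n => {z | z ∈ ball (0 : ℂ) 1 ∧ ‖deriv f z‖ < l n} with hs
    have hsm : ∀ n, MeasurableSet (s n) := fun n =>
      measurableSet_ball.inter (measurableSet_lt hm measurable_const)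
    have hsub : ∀ n, s n ⊆ ball (0 : ℂ) 1 := fun n z hz => hz.1
    have hr : ∀ n, volume.restrict (ball (0 : ℂ) 1) (s n) = volume (s n) := fun n => by
      rw [Measure.restrict_apply (hsm n), inter_eq_left.mpr (hsub n)]
    have hlim : Tendsto (fun n => volume.restrict (ball (0 : ℂ) 1) (s n)) atTop (𝓝 0) := by
      have h1 : Tendsto (fun n => ENNReal.ofReal (C * l n ^ 2)) atTop (𝓝 0) := by
        have h3 := ((tendsto_one_div_add_atTop_nhds_zero_nat (𝕜 := ℝ)).pow 2).const_mul C
        rw [zero_pow two_ne_zero, mul_zero] at h3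
        have h4 := ENNReal.tendsto_ofReal h3
        rw [ENNReal.ofReal_zero] at h4
        exact h4
      refine tendsto_of_tendsto_of_tendsto_of_le_of_le tendsto_const_nhds h1
        (fun n => bot_le) (fun n => ?_)
      simp only [hr]
      exact ((hup f hf).1 (l n) (hl0 n)).1
    refine top_of_low hlim (c := ENNReal.ofReal (π / 4)) (by simp [hpi]) fun n => ?_
    calc ENNReal.ofReal (π / 4)
        ≤ ENNReal.ofReal (l n ^ (2 - p)) * ENNReal.ofReal (π / 4 * l n ^ 2) := by
          have hl0' := hl0 n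
          rw [← ENNReal.ofReal_mul (by positivity)]
          apply ENNReal.ofReal_le_ofReal
          have h5 : l n ^ (2 - p) * l n ^ 2 = l n ^ (4 - p) := by
            rw [← Real.rpow_natCast, ← Real.rpow_add hl0']
            congr 1
            push_cast
            ring
          have h6 : 1 ≤ l n ^ (4 - p) :=
            Real.one_le_rpow_of_pos_of_le_one_of_nonpos hl0' (hl1 n) (by linarith)
          calc π / 4 = π / 4 * 1 := (mul_one _).symm
            _ ≤ π / 4 * l n ^ (4 - p) := by gcongr
            _ = _ := by rw [← h5]; ring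
      _ ≤ ENNReal.ofReal (l n ^ (2 - p)) * volume.restrict (ball (0 : ℂ) 1) (s n) := by
          rw [hr]
          exact mul_le_mul_right (hlow1 (l n) (hl0 n) (hl1 n)) _
      _ = ∫⁻ z in s n, ENNReal.ofReal (l n ^ (2 - p)) ∂(volume.restrict (ball (0 : ℂ) 1)) := by
          rw [setLIntegral_const]
      _ ≤ _ := by
          apply setLIntegral_mono' (hsm n)
          intro z hz
          apply ENNReal.ofReal_le_ofReal
          exact Real.rpow_le_rpow_of_nonpos (hne z hz.1) hz.2.le (by linarith)

end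

end Vale.Agent.P142.H521
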