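import Vale.Agent.P142.H521.Repro2

/-!
P142, Bergman projection: symmetry.
-/

open Complex MeasureTheory Metric Set Filter Topology
open scoped Real ComplexConjugate ENNReal

namespace Vale.Agent.P142.H521

open Vale.Agent.P142

noncomputable section

variable {W : Set ℂ} {φ : ℂ → ℂ}

lemma bergK_symm (φ : ℂ → ℂ) (z w : ℂ) : conj (bergK φ z w) = bergK φ w z := by
  unfold bergK
  simp only [map_div₀, map_mul, map_pow, map_sub, map_one, Complex.conj_conj, Complex.conj_ofReal]
  rw [mul_comm (conj (deriv φ z)), mul_comm (conj (φ z))]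

lemma aesm_K (hW : IsOpen W) (hd : DifferentiableOn ℂ φ W) :
    AEStronglyMeasurable (fun x : ℂ × ℂ => bergK φ x.1 x.2)
      ((volume.restrict W).prod (volume.restrict W)) := by
  have h1 : AEStronglyMeasurable φ (volume.restrict W) :=
    hd.continuousOn.aestronglyMeasurable hW.measurableSet
  have h2 : AEStronglyMeasurable (deriv φ) (volume.restrict W) :=
    (measurable_deriv φ).aestronglyMeasurable
  have h3 : AEStronglyMeasurable (fun w => conj (φ w)) (volume.restrict W) :=
    Complex.continuous_conj.comp_aestronglyMeasurable h1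
  have h4 : AEStronglyMeasurable (fun w => conj (deriv φ w)) (volume.restrict W) :=
    Complex.continuous_conj.comp_aestronglyMeasurable h2
  have h5 : AEStronglyMeasurable (fun x : ℂ × ℂ => deriv φ x.1 * conj (deriv φ x.2))
      ((volume.restrict W).prod (volume.restrict W)) := h2.comp_fst.mul h4.comp_snd
  have h6 : AEStronglyMeasurable (fun x : ℂ × ℂ => 1 - φ x.1 * conj (φ x.2))
      ((volume.restrict W).prod (volume.restrict W)) :=
    aestronglyMeasurable_const.sub (h1.comp_fst.mul h3.comp_snd)
  have h7 : AEStronglyMeasurable (fun x : ℂ × ℂ => (π : ℂ) * (1 - φ x.1 * conj (φ x.2)) ^ 2)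
      ((volume.restrict W).prod (volume.restrict W)) :=
    aestronglyMeasurable_const.mul (h6.pow 2)
  unfold bergK
  exact h5.div₀ h7

/-- (e) symmetry of the Bergman projection -/
theorem berg_symm {p : ℝ} (hp1 : 4 / 3 < p) (hp2 : p < 4) (hW : IsOpen W)
    (hd : DifferentiableOn ℂ φ W) (hb : BijOn φ W (ball 0 1)) {g h : ℂ → ℂ}
    (hg : AEStronglyMeasurable g (volume.restrict W)) (hgp : ∫⁻ w in W, ‖g w‖ₑ ^ p < ⊤)
    (hh : AEStronglyMeasurable h (volume.restrict W))
    (hhp : ∫⁻ w in W, ‖h w‖ₑ ^ (p / (p - 1)) < ⊤) :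
    ∫ z in W, bergP W φ g z * conj (h z) = ∫ z in W, g z * conj (bergP W φ h z) := by
  have hp : 1 < p := by linarith
  have hp0 : 0 < p - 1 := by linarith
  have hpq : p.HolderConjugate (p / (p - 1)) := Real.HolderConjugate.conjExponent hp
  have hK := aesm_K hW hd
  have hKg : AEStronglyMeasurable (fun x : ℂ × ℂ => bergK φ x.1 x.2 * g x.2)
      ((volume.restrict W).prod (volume.restrict W)) := hK.mul hg.comp_snd
  have hh' : AEStronglyMeasurable (fun w => conj (h w)) (volume.restrict W) :=
    Complex.continuous_conj.comp_aestronglyMeasurable hh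
  have hf : AEStronglyMeasurable
      (Function.uncurry fun z w : ℂ => bergK φ z w * g w * conj (h z))
      ((volume.restrict W).prod (volume.restrict W)) := hKg.mul hh'.comp_fst
  have hI : Integrable (Function.uncurry fun z w : ℂ => bergK φ z w * g w * conj (h z))
      ((volume.restrict W).prod (volume.restrict W)) := by
    refine ⟨hf, ?_⟩
    rw [hasFiniteIntegral_iff_enorm, lintegral_prod _ hf.enorm]
    obtain ⟨C, hC, hbd⟩ := berg_bdd hp1 hp2
    have h1 := hbd W φ hW hd hb g hg
    have hm : AEMeasurable (fun z => ∫⁻ w in W, ‖bergK φ z w‖ₑ * ‖g w‖ₑ) (volume.restrict W) := by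
      have h2 : AEMeasurable (fun x : ℂ × ℂ => ‖bergK φ x.1 x.2‖ₑ * ‖g x.2‖ₑ)
          ((volume.restrict W).prod (volume.restrict W)) := hK.enorm.mul hg.comp_snd.enorm
      exact h2.lintegral_prod_right'
    have h3 := ENNReal.lintegral_mul_le_Lp_mul_Lq (volume.restrict W) hpq
      (f := fun z => ∫⁻ w in W, ‖bergK φ z w‖ₑ * ‖g w‖ₑ) (g := fun z => ‖h z‖ₑ) hm hh.enorm
    have h4 : ∀ z : ℂ, ∫⁻ w in W,
        ‖Function.uncurry (fun z w : ℂ => bergK φ z w * g w * conj (h z)) (z, w)‖ₑ =
        (∫⁻ w in W, ‖bergK φ z w‖ₑ * ‖g w‖ₑ) * ‖h z‖ₑ := by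
      intro z
      rw [← lintegral_mul_const' _ _ enorm_ne_top]
      apply lintegral_congr
      intro w
      simp only [Function.uncurry_apply_pair, enorm_mul]
      congr 1
      rw [← ofReal_norm, ← ofReal_norm, Complex.norm_conj]
    simp only [h4]
    refine lt_of_le_of_lt h3 (ENNReal.mul_lt_top ?_ ?_)
    · apply ENNReal.rpow_lt_top_of_nonneg (by positivity)
      exact (lt_of_le_of_lt h1 (ENNReal.mul_lt_top ENNReal.ofReal_lt_top hgp)).ne
    · exact ENNReal.rpow_lt_top_of_nonneg (by positivity) hhp.ne
  calc ∫ z in W, bergP W φ g z * conj (h z)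
      = ∫ z in W, ∫ w in W, bergK φ z w * g w * conj (h z) := by
        congr 1
        funext z
        rw [integral_mul_const]
        rfl
    _ = ∫ w in W, ∫ z in W, bergK φ z w * g w * conj (h z) := integral_integral_swap hI
    _ = _ := by
        congr 1
        funext w
        have h5 : conj (bergP W φ h w) = ∫ z in W, bergK φ z w * conj (h z) := by
          unfold bergP
          rw [← integral_conj]
          congr 1
          funext z
          rw [map_mul, bergK_symm]
        rw [h5, ← integral_const_mul]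
        congr 1
        funext z
        ring

end

end Vale.Agent.P142.H521
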